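import Vale.Agent.P160.Defs

/-! P160, row ALG: a kernel vector with minimal support is determined by few rows. -/

namespace Vale.Agent.P160

open Finset

namespace Alg

variable {n : ℕ}

/-- the columns in `S` -/
def cols (A : Matrix (Fin n) (Fin n) ℝ) (S : Finset (Fin n)) : Matrix (Fin n) S ℝ :=
  Matrix.of fun i j => A i j

theorem mulVec_cols (A : Matrix (Fin n) (Fin n) ℝ) (S : Finset (Fin n)) (u : Fin n → ℝ)
    (hu : ∀ j, j ∉ S → u j = 0) (i : Fin n) :
    A.mulVec u i = (cols A S).mulVec (fun j : S => u j) i := by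
  simp only [Matrix.mulVec, dotProduct, cols, Matrix.of_apply]
  rw [Finset.sum_coe_sort S (fun j => A i j * u j)]
  exact (Finset.sum_subset (Finset.subset_univ S) (fun j _ hj => by rw [hu j hj, mul_zero])).symm

/-- extension by zero -/
def ext0 (S : Finset (Fin n)) (w : S → ℝ) : Fin n → ℝ :=
  fun j => if h : j ∈ S then w ⟨j, h⟩ else 0

theorem ext0_out (S : Finset (Fin n)) (w : S → ℝ) (j : Fin n) (hj : j ∉ S) :
    ext0 S w j = 0 := by
  rw [ext0, dif_neg hj]

theorem ext0_coe (S : Finset (Fin n)) (w : S → ℝ) :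
    (fun j : S => ext0 S w j) = w := by
  ext j
  rw [ext0, dif_pos j.2]

open Classical in
/-- few rows with the same solutions -/
theorem rows (A : Matrix (Fin n) (Fin n) ℝ) (S : Finset (Fin n)) (v : Fin n → ℝ)
    (hv : ∀ j, v j ≠ 0 ↔ j ∈ S) (hS : S.Nonempty) (hAv : A.mulVec v = 0)
    (hmin : ∀ w : Fin n → ℝ, (∀ j, j ∉ S → w j = 0) → A.mulVec w = 0 → ∃ c : ℝ, w = c • v) :
    ∃ R : Finset (Fin n), #R + 1 = #S ∧
      ∀ w : Fin n → ℝ, (∀ j, j ∉ S → w j = 0) → (∀ i ∈ R, A.mulVec w i = 0) →
        ∃ c : ℝ, w = c • v := by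
  have hv0 : ∀ j, j ∉ S → v j = 0 := fun j hj => by
    by_contra h
    exact hj ((hv j).1 h)
  set B := cols A S with hB
  set vS : S → ℝ := fun j => v j with hvS
  have hvS0 : vS ≠ 0 := by
    obtain ⟨j, hj⟩ := hS
    intro h
    have h1 : vS ⟨j, hj⟩ = 0 := by rw [h]; rfl
    exact (hv j).2 hj h1
  have hker : LinearMap.ker B.mulVecLin = Submodule.span ℝ {vS} := by
    apply le_antisymm
    · intro w hw
      rw [LinearMap.mem_ker, Matrix.mulVecLin_apply] at hw
      obtain ⟨c, hc⟩ := hmin (ext0 S w) (ext0_out S w) (by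
        ext i
        rw [mulVec_cols A S _ (ext0_out S w), ext0_coe, ← hB, hw])
      rw [Submodule.mem_span_singleton]
      refine ⟨c, ?_⟩
      have h1 := ext0_coe S w
      rw [← h1, hc]
      rfl
    · rw [Submodule.span_singleton_le_iff_mem, LinearMap.mem_ker, Matrix.mulVecLin_apply]
      ext i
      have h1 := mulVec_cols A S v hv0 i
      rw [hAv] at h1
      exact h1.symm
  have hrk : B.rank + 1 = #S := by
    have h1 := LinearMap.finrank_range_add_finrank_ker B.mulVecLin
    rw [hker, finrank_span_singleton hvS0, Module.finrank_fintype_fun_eq_card,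
      Fintype.card_coe] at h1
    exact h1
  obtain ⟨κ, a, ha, hsp, hli⟩ := exists_linearIndependent' ℝ B.row
  have : Finite κ := Finite.of_injective a ha
  have := Fintype.ofFinite κ
  have hcard : Fintype.card κ = B.rank := by
    rw [Matrix.rank_eq_finrank_span_row, ← hsp, finrank_span_eq_card hli]
  refine ⟨Finset.univ.image a, ?_, ?_⟩
  · rw [Finset.card_image_of_injective _ ha, Finset.card_univ, hcard, hrk]
  · intro w hw0 hw
    apply hmin w hw0
    have h1 : ∀ x ∈ Submodule.span ℝ (Set.range (B.row ∘ a)), x ⬝ᵥ (fun j : S => w j) = 0 := by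
      intro x hx
      induction hx using Submodule.span_induction with
      | mem x hx =>
        obtain ⟨k, rfl⟩ := hx
        have h2 := hw (a k) (Finset.mem_image_of_mem a (Finset.mem_univ k))
        rw [mulVec_cols A S w hw0] at h2
        exact h2
      | zero => exact zero_dotProduct _
      | add x y _ _ hx hy => rw [add_dotProduct, hx, hy, add_zero]
      | smul c x _ hx => rw [smul_dotProduct, hx, smul_zero]
    ext i
    rw [mulVec_cols A S w hw0]
    have h3 : B.row i ∈ Submodule.span ℝ (Set.range (B.row ∘ a)) := by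
      rw [hsp]
      exact Submodule.subset_span ⟨i, rfl⟩
    exact h1 _ h3

end Alg

/-- [ALG] -/
theorem exists_det {n k : ℕ} {s : Sym2 (Fin n) → Bool} (hs : s ∈ Sparse n k) :
    ∃ S R : Finset (Fin n), 2 ≤ #S ∧ #S ≤ k ∧ #R + 1 = #S ∧ Det S R s := by
  classical
  obtain ⟨v0, hv00, hAv0, hk0⟩ := hs
  have hex : ∃ m, ∃ v : Fin n → ℝ, v ≠ 0 ∧ (mat s).mulVec v = 0 ∧ nnz v = m :=
    ⟨_, v0, hv00, hAv0, rfl⟩
  obtain ⟨v, hv0, hAv, hm⟩ := Nat.find_spec hex
  have hminm : ∀ w : Fin n → ℝ, w ≠ 0 → (mat s).mulVec w = 0 → nnz v ≤ nnz w := by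
    intro w hw hAw
    rw [hm]
    exact Nat.find_min' hex ⟨w, hw, hAw, rfl⟩
  have hvk : nnz v ≤ k := (hminm v0 hv00 hAv0).trans hk0
  set S : Finset (Fin n) := {j | v j ≠ 0} with hS
  have hvS : ∀ j, v j ≠ 0 ↔ j ∈ S := by
    intro j
    rw [hS, Finset.mem_filter]
    simp
  have hcard : #S = nnz v := by
    rw [hS]
    rfl
  have hv0' : ∀ j, j ∉ S → v j = 0 := fun j hj => by
    by_contra h
    exact hj ((hvS j).1 h)
  have hSne : S.Nonempty := by
    by_contra h
    rw [Finset.not_nonempty_iff_eq_empty] at h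
    apply hv0
    ext j
    exact hv0' j (by rw [h]; exact Finset.notMem_empty j)
  have h2 : 2 ≤ #S := by
    by_contra h
    have h1 : #S = 1 := by
      have := hSne.card_pos
      omega
    obtain ⟨j, hj⟩ := Finset.card_eq_one.1 h1
    have h3 : (mat s).mulVec v j = 0 := by rw [hAv]; rfl
    have h4 : (mat s).mulVec v j = mat s j j * v j := by
      simp only [Matrix.mulVec, dotProduct]
      apply Finset.sum_eq_single j
      · intro b _ hb
        rw [hv0' b (by rw [hj]; simpa using hb), mul_zero]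
      · intro h
        exact absurd (Finset.mem_univ j) h
    have h5 : v j ≠ 0 := (hvS j).2 (by rw [hj]; simp)
    have h6 : mat s j j ≠ 0 := by
      simp only [mat, Matrix.of_apply, sg]
      split_ifs <;> norm_num
    rw [h4] at h3
    rcases mul_eq_zero.1 h3 with h7 | h7
    · exact h6 h7
    · exact h5 h7
  have hmin : ∀ w : Fin n → ℝ, (∀ j, j ∉ S → w j = 0) → (mat s).mulVec w = 0 →
      ∃ c : ℝ, w = c • v := by
    intro w hw hAw
    obtain ⟨j, hj⟩ := hSne
    have hvj : v j ≠ 0 := (hvS j).2 hj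
    refine ⟨w j / v j, ?_⟩
    by_contra hne
    have h3 : w - (w j / v j) • v ≠ 0 := sub_ne_zero.2 hne
    have h4 : (mat s).mulVec (w - (w j / v j) • v) = 0 := by
      rw [Matrix.mulVec_sub, Matrix.mulVec_smul, hAw, hAv, smul_zero, sub_zero]
    have h5 := hminm _ h3 h4
    have h6 : nnz (w - (w j / v j) • v) < #S := by
      unfold nnz
      apply Finset.card_lt_card
      rw [Finset.ssubset_iff_of_subset]
      · refine ⟨j, hj, ?_⟩
        rw [Finset.mem_filter]
        push Not
        intro _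
        simp only [Pi.sub_apply, Pi.smul_apply, smul_eq_mul]
        field_simp
        ring
      · intro i hi
        rw [Finset.mem_filter] at hi
        by_contra hiS
        apply hi.2
        simp only [Pi.sub_apply, Pi.smul_apply, smul_eq_mul]
        rw [hw i hiS, hv0' i hiS]
        ring
    omega
  obtain ⟨R, hR, hdet⟩ := Alg.rows (mat s) S v hvS hSne hAv hmin
  exact ⟨S, R, h2, by rw [hcard]; exact hvk, hR, v, hvS, hAv, hdet⟩

end Vale.Agent.P160
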