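import Vale.Agent.P160.Defs2

/-!
P160 [ALG2]: a kernel vector of minimal support in a subspace is determined by few rows.
-/

namespace Vale.Agent.P160

open Finset

namespace Alg2

variable {n : ℕ}

/-- the vectors of `W` supported in `S` -/
def WS (W : Submodule ℝ (Fin n → ℝ)) (S : Finset (Fin n)) : Submodule ℝ (Fin n → ℝ) where
  carrier := {w | w ∈ W ∧ ∀ j, j ∉ S → w j = 0}
  add_mem' := by
    rintro a b ⟨ha, ha'⟩ ⟨hb, hb'⟩
    refine ⟨W.add_mem ha hb, fun j hj => ?_⟩
    rw [Pi.add_apply, ha' j hj, hb' j hj, add_zero]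
  zero_mem' := ⟨W.zero_mem, fun _ _ => rfl⟩
  smul_mem' := by
    rintro c a ⟨ha, ha'⟩
    refine ⟨W.smul_mem c ha, fun j hj => ?_⟩
    rw [Pi.smul_apply, ha' j hj, smul_zero]

/-- the functional given by a row -/
def rowF (A : Matrix (Fin n) (Fin n) ℝ) (V : Submodule ℝ (Fin n → ℝ)) (i : Fin n) :
    Module.Dual ℝ V :=
  (LinearMap.proj i ∘ₗ A.mulVecLin) ∘ₗ V.subtype

theorem rowF_apply (A : Matrix (Fin n) (Fin n) ℝ) (V : Submodule ℝ (Fin n → ℝ)) (i : Fin n)
    (w : V) : rowF A V i w = A.mulVec w i := rfl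

open Classical in
/-- few rows with the same solutions in a subspace -/
theorem rows (A : Matrix (Fin n) (Fin n) ℝ) (V : Submodule ℝ (Fin n → ℝ)) {v : Fin n → ℝ}
    (hvV : v ∈ V) (hv0 : v ≠ 0) (hAv : A.mulVec v = 0) :
    ∃ R : Finset (Fin n), #R < Module.finrank ℝ V ∧
      ∀ w ∈ V, (∀ i ∈ R, A.mulVec w i = 0) → A.mulVec w = 0 := by
  obtain ⟨κ, a, ha, hsp, hli⟩ := exists_linearIndependent' ℝ (rowF A V)
  have : Finite κ := Finite.of_injective a ha
  have := Fintype.ofFinite κ
  have hle : Fintype.card κ ≤ Module.finrank ℝ V := by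
    have h := hli.fintype_card_le_finrank
    rwa [Subspace.dual_finrank_eq] at h
  have hkill : ∀ f ∈ Submodule.span ℝ (Set.range (rowF A V ∘ a)),
      ∀ w : V, (∀ k, rowF A V (a k) w = 0) → f w = 0 := by
    intro f hf w hw
    induction hf using Submodule.span_induction with
    | mem x hx =>
      obtain ⟨k, rfl⟩ := hx
      exact hw k
    | zero => rfl
    | add x y _ _ hx hy => rw [LinearMap.add_apply, hx, hy, add_zero]
    | smul c x _ hx => rw [LinearMap.smul_apply, hx, smul_zero]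
  refine ⟨Finset.univ.image a, ?_, ?_⟩
  · rw [Finset.card_image_of_injective _ ha, Finset.card_univ]
    refine lt_of_le_of_ne hle fun heq => ?_
    have htop : Submodule.span ℝ (Set.range (rowF A V ∘ a)) = ⊤ := by
      apply hli.span_eq_top_of_card_eq_finrank'
      rw [heq, Subspace.dual_finrank_eq]
    have h1 : (⟨v, hvV⟩ : V) = 0 := by
      rw [← Module.forall_dual_apply_eq_zero_iff ℝ]
      intro f
      refine hkill f (by rw [htop]; trivial) _ fun k => ?_
      rw [rowF_apply]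
      change A.mulVec v (a k) = 0
      rw [hAv]
      rfl
    exact hv0 (congrArg Subtype.val h1)
  · intro w hwV hw
    ext i
    have h1 : rowF A V i ∈ Submodule.span ℝ (Set.range (rowF A V ∘ a)) := by
      rw [hsp]
      exact Submodule.subset_span ⟨i, rfl⟩
    exact hkill _ h1 ⟨w, hwV⟩ fun k => hw (a k) (Finset.mem_image_of_mem a (Finset.mem_univ k))

/-- a kernel vector of minimal support in `W` is determined by few rows -/
theorem exists_detW_of {s : Sym2 (Fin n) → Bool} (W : Submodule ℝ (Fin n → ℝ))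
    {v0 : Fin n → ℝ} (hvW0 : v0 ∈ W) (hv00 : v0 ≠ 0) (hAv0 : (mat s).mulVec v0 = 0) :
    ∃ S R : Finset (Fin n), S.Nonempty ∧ #R < Module.finrank ℝ W ∧ #S ≤ nnz v0 ∧
      DetW W S R s := by
  classical
  have hex : ∃ m, ∃ v ∈ W, v ≠ 0 ∧ (mat s).mulVec v = 0 ∧ nnz v = m :=
    ⟨_, v0, hvW0, hv00, hAv0, rfl⟩
  obtain ⟨v, hvW, hv0, hAv, hm⟩ := Nat.find_spec hex
  have hminm : ∀ w ∈ W, w ≠ 0 → (mat s).mulVec w = 0 → nnz v ≤ nnz w := by
    intro w hwW hw hAw
    rw [hm]
    exact Nat.find_min' hex ⟨w, hwW, hw, hAw, rfl⟩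
  set S : Finset (Fin n) := {j | v j ≠ 0} with hS
  have hvS : ∀ j, v j ≠ 0 ↔ j ∈ S := by
    intro j
    rw [hS, Finset.mem_filter]
    simp
  have hcard : #S = nnz v := by
    rw [hS]
    rfl
  have hv0' : ∀ j, j ∉ S → v j = 0 := fun j hj => by
    by_contra h
    exact hj ((hvS j).1 h)
  have hSne : S.Nonempty := by
    by_contra h
    rw [Finset.not_nonempty_iff_eq_empty] at h
    apply hv0
    ext j
    exact hv0' j (by rw [h]; exact Finset.notMem_empty j)
  have hmin : ∀ w ∈ W, (∀ j, j ∉ S → w j = 0) → (mat s).mulVec w = 0 →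
      ∃ c : ℝ, w = c • v := by
    intro w hwW hw hAw
    obtain ⟨j, hj⟩ := hSne
    have hvj : v j ≠ 0 := (hvS j).2 hj
    refine ⟨w j / v j, ?_⟩
    by_contra hne
    have h3 : w - (w j / v j) • v ≠ 0 := sub_ne_zero.2 hne
    have h4 : (mat s).mulVec (w - (w j / v j) • v) = 0 := by
      rw [Matrix.mulVec_sub, Matrix.mulVec_smul, hAw, hAv, smul_zero, sub_zero]
    have h5 := hminm _ (W.sub_mem hwW (W.smul_mem _ hvW)) h3 h4
    have h6 : nnz (w - (w j / v j) • v) < #S := by
      unfold nnz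
      apply Finset.card_lt_card
      rw [Finset.ssubset_iff_of_subset]
      · refine ⟨j, hj, ?_⟩
        rw [Finset.mem_filter]
        push Not
        intro _
        simp only [Pi.sub_apply, Pi.smul_apply, smul_eq_mul]
        field_simp
        ring
      · intro i hi
        rw [Finset.mem_filter] at hi
        by_contra hiS
        apply hi.2
        simp only [Pi.sub_apply, Pi.smul_apply, smul_eq_mul]
        rw [hw i hiS, hv0' i hiS]
        ring
    omega
  obtain ⟨R, hR, hdet⟩ := rows (mat s) (WS W S) (v := v) ⟨hvW, hv0'⟩ hv0 hAv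
  refine ⟨S, R, hSne, hR.trans_le (Submodule.finrank_mono fun w hw => hw.1), ?_, v, hvW, hvS,
    hAv, ?_⟩
  · rw [hcard]
    exact hminm v0 hvW0 hv00 hAv0
  · intro w hwW hw hwR
    exact hmin w hwW hw (hdet w ⟨hwW, hw⟩ hwR)

/-- the dimension of `Wpi p` is at most the number of classes -/
theorem finrank_Wpi_le {L : ℕ} (p : Fin n → Fin L) : Module.finrank ℝ (Wpi p) ≤ L := by
  classical
  have h1 : Wpi p ≤ LinearMap.range (LinearMap.funLeft ℝ ℝ p) := by
    intro w hw
    refine ⟨fun l => if h : ∃ i, p i = l then w h.choose else 0, ?_⟩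
    ext i
    rw [LinearMap.funLeft_apply]
    have h2 : ∃ i', p i' = p i := ⟨i, rfl⟩
    rw [dif_pos h2]
    exact hw _ _ h2.choose_spec
  have h3 := (Submodule.finrank_mono h1).trans (LinearMap.finrank_range_le _)
  rwa [Module.finrank_fintype_fun_eq_card, Fintype.card_fin] at h3

end Alg2

open Classical in
/-- [ALG2] -/
theorem exists_detW {n L : ℕ} {s : Sym2 (Fin n) → Bool} {v : Fin n → ℝ} (hv : v ≠ 0)
    (hA : (mat s).mulVec v = 0) (hL : #(univ.image v) ≤ L) :
    ∃ (p : Fin n → Fin L) (S R : Finset (Fin n)), S.Nonempty ∧ #R < L ∧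
      DetW (Wpi p) S R s := by
  set p : Fin n → Fin L := fun i => Fin.castLE hL
    ((univ.image v).equivFin ⟨v i, mem_image_of_mem v (mem_univ i)⟩) with hp
  have hvp : v ∈ Wpi p := by
    intro i j hij
    have h1 := (Fin.castLE_injective hL) hij
    have h2 := (univ.image v).equivFin.injective h1
    exact congrArg Subtype.val h2
  obtain ⟨S, R, h1, h2, _, h4⟩ := Alg2.exists_detW_of (Wpi p) hvp hv hA
  exact ⟨p, S, R, h1, h2.trans_le (Alg2.finrank_Wpi_le p), h4⟩

end Vale.Agent.P160
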