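import Vale.Agent.P160.Rho

/-!
P160: the asymptotic estimate in the union bound.
-/

namespace Vale.Agent.P160

open Finset

namespace As

theorem rho_nonneg (m : ℕ) : 0 ≤ rho m := (rho_pos m).le

theorem rho_le_half {m : ℕ} (hm : 1 ≤ m) : rho m ≤ 1 / 2 := by
  rw [← rho_one]; exact rho_antitone hm

theorem rho_le_38 {m : ℕ} (hm : 3 ≤ m) : rho m ≤ 3 / 8 := by
  rw [← rho_three]; exact rho_antitone hm

theorem rho_le_one (m : ℕ) : rho m ≤ 1 := by
  have h0 : rho 0 = 1 := by simp [rho]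
  rw [← h0]; exact rho_antitone (Nat.zero_le m)

/-- `rho` is small from `64 ^ L` on -/
theorem rho_small {L m : ℕ} (hm : 64 ^ L ≤ m) : rho m ≤ (1 / 8) ^ L := by
  have h1 := rho_sq m
  have h2 : (64 : ℝ) ^ L ≤ m := by exact_mod_cast hm
  have h3 : (64 : ℝ) ^ L * rho m ^ 2 ≤ 1 :=
    (mul_le_mul_of_nonneg_right h2 (sq_nonneg _)).trans h1
  have h4 : ((8 : ℝ) ^ L * rho m) ^ 2 ≤ 1 := by
    have h5 : ((8 : ℝ) ^ L * rho m) ^ 2 = (64 : ℝ) ^ L * rho m ^ 2 := by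
      rw [mul_pow, ← pow_mul, mul_comm L 2, pow_mul]; norm_num
    rw [h5]; exact h3
  have h5 : (8 : ℝ) ^ L * rho m ≤ 1 := by
    have h6 : 0 ≤ (8 : ℝ) ^ L * rho m := mul_nonneg (by positivity) (rho_nonneg m)
    nlinarith
  have h8 : (0 : ℝ) < 8 ^ L := by positivity
  rw [one_div, inv_pow, ← one_div, le_div_iff₀ h8, mul_comm]
  exact h5

theorem prod_small (L b : ℕ) :
    ∏ i ∈ range b, rho (i + 1) ≤ ((1 / 8 : ℝ) ^ L) ^ (b - 64 ^ L) := by
  induction b with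
  | zero => simp
  | succ b ih =>
    rw [prod_range_succ]
    have h0 : 0 ≤ ∏ i ∈ range b, rho (i + 1) := prod_nonneg fun i _ => rho_nonneg _
    rcases le_or_gt (64 ^ L) b with h | h
    · rw [Nat.succ_sub h, pow_succ]
      exact mul_le_mul ih (rho_small (by omega)) (rho_nonneg _) (by positivity)
    · have h1 : b + 1 - 64 ^ L = 0 := by omega
      have h2 : b - 64 ^ L = 0 := by omega
      rw [h1]
      rw [h2] at ih
      calc (∏ i ∈ range b, rho (i + 1)) * rho (b + 1) ≤ 1 * 1 :=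
            mul_le_mul (by simpa using ih) (rho_le_one _) (rho_nonneg _) zero_le_one
        _ = ((1 / 8 : ℝ) ^ L) ^ 0 := by simp

theorem prod_half (b : ℕ) : ∏ i ∈ range b, rho (i + 1) ≤ (1 / 2 : ℝ) ^ b := by
  induction b with
  | zero => simp
  | succ b ih =>
    rw [prod_range_succ, pow_succ]
    exact mul_le_mul ih (rho_le_half (by omega)) (rho_nonneg _) (by positivity)

theorem choose_bound (n k : ℕ) : (n.choose k : ℝ) ≤ (100 / 99) ^ n * 99 ^ k := by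
  rcases le_or_gt k n with h | h
  · have h1 : ((1 / 99 : ℝ) + 1) ^ n = ∑ m ∈ range (n + 1),
        (1 / 99 : ℝ) ^ m * 1 ^ (n - m) * (n.choose m : ℝ) := add_pow _ _ _
    have h2 : (1 / 99 : ℝ) ^ k * 1 ^ (n - k) * (n.choose k : ℝ) ≤ ((1 / 99 : ℝ) + 1) ^ n := by
      rw [h1]
      exact single_le_sum (f := fun m => (1 / 99 : ℝ) ^ m * 1 ^ (n - m) * (n.choose m : ℝ))
        (fun i _ => by positivity) (mem_range.2 (by omega))
    have h3 : ((1 / 99 : ℝ) + 1) = 100 / 99 := by norm_num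
    rw [h3, one_pow, mul_one] at h2
    have h4 : (n.choose k : ℝ) = ((1 / 99 : ℝ) ^ k * (n.choose k : ℝ)) * 99 ^ k := by
      have : (1 / 99 : ℝ) ^ k * 99 ^ k = 1 := by rw [← mul_pow]; norm_num
      calc (n.choose k : ℝ) = ((1 / 99 : ℝ) ^ k * 99 ^ k) * (n.choose k : ℝ) := by
            rw [this, one_mul]
        _ = _ := by ring
    rw [h4]
    exact mul_le_mul_of_nonneg_right h2 (by positivity)
  · rw [Nat.choose_eq_zero_of_lt h]
    simp only [Nat.cast_zero]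
    positivity

theorem choose_four (n k l : ℕ) : (n.choose k : ℝ) * (n.choose l) ≤ 4 ^ n := by
  have h1 : n.choose k ≤ 2 ^ n := Nat.choose_le_two_pow n k
  have h2 : n.choose l ≤ 2 ^ n := Nat.choose_le_two_pow n l
  have h3 : (n.choose k : ℝ) ≤ 2 ^ n := by exact_mod_cast h1
  have h4 : (n.choose l : ℝ) ≤ 2 ^ n := by exact_mod_cast h2
  calc (n.choose k : ℝ) * (n.choose l) ≤ 2 ^ n * 2 ^ n :=
        mul_le_mul h3 h4 (Nat.cast_nonneg _) (by positivity)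
    _ = 4 ^ n := by rw [← mul_pow]; norm_num

/-- supports with at most one percent of the coordinates -/
theorem small_k {n k a b : ℕ} (h3 : 3 ≤ k) (hk : 100 * k ≤ n) (hab : a + b + k = n + 1)
    (hb : b ≤ k) :
    (n.choose k : ℝ) * (n.choose (k - 1)) * (rho k ^ a * ∏ i ∈ range b, rho (i + 1))
      ≤ (1 / 2) ^ n := by
  have e1 : rho k ^ a * ∏ i ∈ range b, rho (i + 1) ≤ (3 / 8 : ℝ) ^ (n + 1) * (32 / 9) ^ k := by
    have h4 : rho k ^ a ≤ (3 / 8 : ℝ) ^ a := pow_le_pow_left₀ (rho_nonneg k) (rho_le_38 h3) a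
    have h5 : rho k ^ a * ∏ i ∈ range b, rho (i + 1) ≤ (3 / 8 : ℝ) ^ a * (1 / 2) ^ b :=
      mul_le_mul h4 (prod_half b) (prod_nonneg fun i _ => rho_nonneg _) (by positivity)
    refine h5.trans ?_
    have h6 : (1 / 2 : ℝ) ^ b = (3 / 8) ^ b * (4 / 3) ^ b := by rw [← mul_pow]; norm_num
    have h7 : (4 / 3 : ℝ) ^ b ≤ (4 / 3) ^ k := pow_le_pow_right₀ (by norm_num) hb
    have h8 : (3 / 8 : ℝ) ^ (n + 1) = (3 / 8) ^ a * (3 / 8) ^ b * (3 / 8) ^ k := by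
      rw [← hab, pow_add, pow_add]
    have h9 : (4 / 3 : ℝ) ^ k = (3 / 8) ^ k * (32 / 9) ^ k := by rw [← mul_pow]; norm_num
    rw [h6, h8]
    calc (3 / 8 : ℝ) ^ a * ((3 / 8) ^ b * (4 / 3) ^ b)
        ≤ (3 / 8 : ℝ) ^ a * ((3 / 8) ^ b * (4 / 3) ^ k) := by gcongr
      _ = (3 / 8) ^ a * (3 / 8) ^ b * (3 / 8) ^ k * (32 / 9) ^ k := by rw [h9]; ring
  have e2 : (n.choose k : ℝ) ≤ (100 / 99) ^ n * 99 ^ k := choose_bound n k
  have e3 : (n.choose (k - 1) : ℝ) ≤ (100 / 99) ^ n * 99 ^ k := by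
    refine (choose_bound n (k - 1)).trans ?_
    gcongr
    · norm_num
    · omega
  have e4 : (34848 : ℝ) ^ k ≤ (10 / 9) ^ n := by
    calc (34848 : ℝ) ^ k ≤ ((10 / 9 : ℝ) ^ 100) ^ k := by
          apply pow_le_pow_left₀ (by norm_num)
          norm_num
      _ = (10 / 9 : ℝ) ^ (100 * k) := by rw [← pow_mul]
      _ ≤ (10 / 9) ^ n := pow_le_pow_right₀ (by norm_num) hk
  have p0 : 0 ≤ rho k ^ a * ∏ i ∈ range b, rho (i + 1) :=
    mul_nonneg (pow_nonneg (rho_nonneg k) a) (prod_nonneg fun i _ => rho_nonneg _)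
  calc (n.choose k : ℝ) * (n.choose (k - 1)) * (rho k ^ a * ∏ i ∈ range b, rho (i + 1))
      ≤ ((100 / 99) ^ n * 99 ^ k) * ((100 / 99) ^ n * 99 ^ k) *
          ((3 / 8 : ℝ) ^ (n + 1) * (32 / 9) ^ k) := by
        apply mul_le_mul _ e1 p0 (by positivity)
        exact mul_le_mul e2 e3 (Nat.cast_nonneg _) (by positivity)
    _ = (3 / 8) * ((100 / 99 * (100 / 99) * (3 / 8) : ℝ) ^ n * (34848 : ℝ) ^ k) := by
        have : (34848 : ℝ) ^ k = 99 ^ k * 99 ^ k * (32 / 9) ^ k := by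
          rw [← mul_pow, ← mul_pow]; norm_num
        rw [this, mul_pow, mul_pow, pow_succ]
        ring
    _ ≤ 1 * ((100 / 99 * (100 / 99) * (3 / 8) : ℝ) ^ n * (10 / 9) ^ n) := by
        gcongr
        norm_num
    _ = (100 / 99 * (100 / 99) * (3 / 8) * (10 / 9) : ℝ) ^ n := by
        rw [one_mul, ← mul_pow]
    _ ≤ (1 / 2) ^ n := by
        apply pow_le_pow_left₀ (by norm_num)
        norm_num

/-- all other supports -/
theorem large_k {n k a b L : ℕ} (hk : 64 ^ L ≤ k) (hn : n ≤ L * (a + (b - 64 ^ L))) :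
    (n.choose k : ℝ) * (n.choose (k - 1)) * (rho k ^ a * ∏ i ∈ range b, rho (i + 1))
      ≤ (1 / 2) ^ n := by
  have e1 : rho k ^ a ≤ ((1 / 8 : ℝ) ^ L) ^ a := pow_le_pow_left₀ (rho_nonneg k) (rho_small hk) a
  have e2 : rho k ^ a * ∏ i ∈ range b, rho (i + 1) ≤
      ((1 / 8 : ℝ) ^ L) ^ a * ((1 / 8 : ℝ) ^ L) ^ (b - 64 ^ L) :=
    mul_le_mul e1 (prod_small L b) (prod_nonneg fun i _ => rho_nonneg _) (by positivity)
  have e3 : ((1 / 8 : ℝ) ^ L) ^ a * ((1 / 8 : ℝ) ^ L) ^ (b - 64 ^ L) ≤ (1 / 8) ^ n := by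
    rw [← pow_add, ← pow_mul]
    exact pow_le_pow_of_le_one (by norm_num) (by norm_num) hn
  have p0 : 0 ≤ rho k ^ a * ∏ i ∈ range b, rho (i + 1) :=
    mul_nonneg (pow_nonneg (rho_nonneg k) a) (prod_nonneg fun i _ => rho_nonneg _)
  calc (n.choose k : ℝ) * (n.choose (k - 1)) * (rho k ^ a * ∏ i ∈ range b, rho (i + 1))
      ≤ 4 ^ n * (1 / 8) ^ n :=
        mul_le_mul (choose_four n k (k - 1)) (e2.trans e3) p0 (by positivity)
    _ = (1 / 2) ^ n := by rw [← mul_pow]; norm_num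

end As

theorem asym {ε : ℝ} (hε : 0 < ε) : ∃ n0 : ℕ, ∀ n ≥ n0, ∀ k a b : ℕ, 3 ≤ k →
    (k : ℝ) ≤ (1 - ε) * n → a + b + k = n + 1 → b ≤ k →
    (n.choose k : ℝ) * (n.choose (k - 1)) * (rho k ^ a * ∏ i ∈ range b, rho (i + 1))
      ≤ (1 / 2) ^ n := by
  obtain ⟨L, hL⟩ := exists_nat_ge (2 / ε)
  obtain ⟨N, hN⟩ := exists_nat_ge (2 * (64 : ℝ) ^ L / ε)
  refine ⟨max (100 * 64 ^ L) N, ?_⟩
  intro n hn k a b h3 hk hab hb
  rcases le_or_gt (100 * k) n with h | h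
  · exact As.small_k h3 h hab hb
  · have hn1 : 100 * 64 ^ L ≤ n := le_trans (le_max_left _ _) hn
    have hn2 : (N : ℝ) ≤ n := by exact_mod_cast le_trans (le_max_right _ _) hn
    apply As.large_k (L := L) (by omega)
    have g1 : (a : ℝ) + b + k = n + 1 := by exact_mod_cast hab
    have g2 : ((b : ℝ) - 64 ^ L) ≤ ((b - 64 ^ L : ℕ) : ℝ) := by
      have : b ≤ (b - 64 ^ L) + 64 ^ L := by omega
      have h' : (b : ℝ) ≤ ((b - 64 ^ L : ℕ) : ℝ) + 64 ^ L := by exact_mod_cast this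
      linarith
    have g3 : 2 * (64 : ℝ) ^ L ≤ ε * n := by
      have := hN.trans hn2
      rw [div_le_iff₀ hε] at this
      linarith
    have g4 : ε * n / 2 ≤ (a : ℝ) + ((b - 64 ^ L : ℕ) : ℝ) := by nlinarith
    have g5 : 2 ≤ L * ε := by
      rw [div_le_iff₀ hε] at hL
      exact hL
    have g6 : (n : ℝ) ≤ L * ((a : ℝ) + ((b - 64 ^ L : ℕ) : ℝ)) := by
      have hn0 : (0 : ℝ) ≤ n := Nat.cast_nonneg n
      have hL0 : (0 : ℝ) ≤ L := Nat.cast_nonneg L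
      calc (n : ℝ) = 2 * n / 2 := by ring
        _ ≤ (L * ε) * n / 2 := by nlinarith
        _ = L * (ε * n / 2) := by ring
        _ ≤ _ := mul_le_mul_of_nonneg_left g4 hL0
    exact_mod_cast g6

end Vale.Agent.P160
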