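import Vale.Agent.P160.Rho

/-!
# P160, second part: the asymptotic estimate for kernel vectors with few distinct values
-/

namespace Vale.Agent.P160

open Finset

namespace AsymW

theorem prod_rho_sq (b : ℕ) : (∏ i ∈ range b, rho (i + 1)) ^ 2 * (b.factorial : ℝ) ≤ 1 := by
  induction b with
  | zero => simp
  | succ b ih =>
    rw [Finset.prod_range_succ, Nat.factorial_succ]
    have h1 := rho_sq (b + 1)
    push_cast at h1 ⊢
    have h2 : 0 ≤ (∏ i ∈ range b, rho (i + 1)) ^ 2 * (b.factorial : ℝ) := by positivity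
    have h3 : 0 ≤ ((b : ℝ) + 1) * rho (b + 1) ^ 2 := by positivity
    calc ((∏ i ∈ range b, rho (i + 1)) * rho (b + 1)) ^ 2 * (((b : ℝ) + 1) * (b.factorial : ℝ))
        = ((∏ i ∈ range b, rho (i + 1)) ^ 2 * (b.factorial : ℝ)) *
            (((b : ℝ) + 1) * rho (b + 1) ^ 2) := by ring
      _ ≤ 1 * 1 := mul_le_mul ih h1 h3 zero_le_one
      _ = 1 := one_mul 1

theorem pow_le_fact (b : ℕ) : (b : ℝ) ^ b ≤ 3 ^ b * (b.factorial : ℝ) := by
  have h := Real.pow_div_factorial_le_exp (x := (b : ℝ)) (Nat.cast_nonneg b) b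
  have hf : (0 : ℝ) < (b.factorial : ℝ) := by exact_mod_cast Nat.factorial_pos b
  rw [div_le_iff₀ hf] at h
  refine le_trans h ?_
  apply mul_le_mul_of_nonneg_right _ hf.le
  have h3 : Real.exp (b : ℝ) = Real.exp 1 ^ b := by
    rw [← Real.exp_nat_mul, mul_one]
  rw [h3]
  exact pow_le_pow_left₀ (Real.exp_pos 1).le (by
    have := Real.exp_one_lt_d9
    linarith) b

end AsymW

open AsymW in
/-- The row ASYM2 of the second part. -/
theorem asym2 : ∃ n0 : ℕ, ∀ n ≥ n0, ∀ L k a b r : ℕ, (((100 * L : ℕ) : ℝ)) ^ 2 ≤ n → r < L →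
    a + b + r = n → n ≤ 2 * k → k ≤ b + r →
    (L : ℝ) ^ n * 4 ^ n * (rho k ^ a * ∏ i ∈ range b, rho (i + 1)) ≤ (1 / 2) ^ n := by
  refine ⟨0, ?_⟩
  intro n _ L k a b r hL hr habr hk hkb
  have hL1 : 1 ≤ L := by omega
  have hL1' : (1 : ℝ) ≤ L := by exact_mod_cast hL1
  push_cast at hL
  have hn4 : (10000 : ℝ) * (L : ℝ) ^ 2 ≤ n := by nlinarith
  have hn1 : (10000 : ℝ) ≤ n := by nlinarith
  have hn0 : (0 : ℝ) < n := by linarith
  -- `L` is small compared with `n`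
  have hLn : (10000 : ℝ) * L ≤ n := by nlinarith
  have hLn' : 10000 * L ≤ n := by exact_mod_cast hLn
  have hb3 : n ≤ 3 * b := by omega
  have hb3' : (n : ℝ) ≤ 3 * b := by exact_mod_cast hb3
  have hk2 : (n : ℝ) ≤ 2 * k := by exact_mod_cast hk
  have hkpos : (0 : ℝ) < k := by linarith
  -- squares
  have hA : (rho k ^ 2) ^ a ≤ (9 / (n : ℝ)) ^ a := by
    apply pow_le_pow_left₀ (by positivity)
    have h1 := rho_sq k
    rw [le_div_iff₀ hn0]
    have h2 : 0 ≤ rho k ^ 2 := by positivity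
    nlinarith
  have hB : (∏ i ∈ range b, rho (i + 1)) ^ 2 ≤ (9 / (n : ℝ)) ^ b := by
    have h1 := prod_rho_sq b
    have h2 := pow_le_fact b
    have hf : (0 : ℝ) < (b.factorial : ℝ) := by exact_mod_cast Nat.factorial_pos b
    have h3 : (n : ℝ) ^ b ≤ 9 ^ b * (b.factorial : ℝ) := by
      calc (n : ℝ) ^ b ≤ (3 * (b : ℝ)) ^ b := pow_le_pow_left₀ hn0.le hb3' b
        _ = 3 ^ b * (b : ℝ) ^ b := mul_pow _ _ _
        _ ≤ 3 ^ b * (3 ^ b * (b.factorial : ℝ)) := mul_le_mul_of_nonneg_left h2 (by positivity)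
        _ = 9 ^ b * (b.factorial : ℝ) := by
            rw [← mul_assoc, ← mul_pow]; norm_num
    rw [div_pow, le_div_iff₀ (by positivity)]
    have h4 : 0 ≤ (∏ i ∈ range b, rho (i + 1)) ^ 2 := by positivity
    calc (∏ i ∈ range b, rho (i + 1)) ^ 2 * (n : ℝ) ^ b
        ≤ (∏ i ∈ range b, rho (i + 1)) ^ 2 * (9 ^ b * (b.factorial : ℝ)) :=
          mul_le_mul_of_nonneg_left h3 h4
      _ = 9 ^ b * ((∏ i ∈ range b, rho (i + 1)) ^ 2 * (b.factorial : ℝ)) := by ring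
      _ ≤ 9 ^ b * 1 := mul_le_mul_of_nonneg_left h1 (by positivity)
      _ = 9 ^ b := mul_one _
  -- the polynomial factor
  have hpoly : (n : ℝ) ^ r ≤ 17 ^ n := by
    have hs : (0 : ℝ) ≤ Real.sqrt n := Real.sqrt_nonneg _
    have hss : Real.sqrt n * Real.sqrt n = n := Real.mul_self_sqrt hn0.le
    have h1 : Real.sqrt n ≤ Real.exp (Real.sqrt n) := by
      have := Real.add_one_le_exp (Real.sqrt n)
      linarith
    have h2 : (n : ℝ) ≤ Real.exp (2 * Real.sqrt n) := by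
      calc (n : ℝ) = Real.sqrt n * Real.sqrt n := hss.symm
        _ ≤ Real.exp (Real.sqrt n) * Real.exp (Real.sqrt n) :=
            mul_le_mul h1 h1 hs (Real.exp_pos _).le
        _ = Real.exp (2 * Real.sqrt n) := by rw [← Real.exp_add]; ring_nf
    have h3 : (L : ℝ) ≤ Real.sqrt n := by
      apply Real.le_sqrt_of_sq_le
      nlinarith
    have h3' : (100 : ℝ) * L ≤ Real.sqrt n := by
      apply Real.le_sqrt_of_sq_le
      nlinarith
    have hrL : (r : ℝ) ≤ L := by exact_mod_cast hr.le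
    calc (n : ℝ) ^ r ≤ (Real.exp (2 * Real.sqrt n)) ^ r := pow_le_pow_left₀ hn0.le h2 r
      _ = Real.exp ((r : ℝ) * (2 * Real.sqrt n)) := by rw [← Real.exp_nat_mul]
      _ ≤ Real.exp ((n : ℝ) * 1) := by
          apply Real.exp_le_exp.mpr
          nlinarith [mul_le_mul_of_nonneg_right hrL hs, mul_le_mul_of_nonneg_right h3' hs]
      _ = Real.exp 1 ^ n := by rw [← Real.exp_nat_mul]
      _ ≤ 17 ^ n := by
          apply pow_le_pow_left₀ (Real.exp_pos 1).le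
          have := Real.exp_one_lt_d9
          linarith
  set Q : ℝ := ∏ i ∈ range b, rho (i + 1) with hQ
  have hQ0 : 0 ≤ Q := Finset.prod_nonneg fun i _ => (rho_pos _).le
  have hT0 : 0 ≤ (L : ℝ) ^ n * 4 ^ n * (rho k ^ a * Q) := by
    have := (rho_pos k).le
    positivity
  have hsq : ((L : ℝ) ^ n * 4 ^ n * (rho k ^ a * Q)) ^ 2 ≤ ((1 / 2 : ℝ) ^ n) ^ 2 := by
    have e1 : ((L : ℝ) ^ n * 4 ^ n * (rho k ^ a * Q)) ^ 2 =
        (16 * (L : ℝ) ^ 2) ^ n * ((rho k ^ 2) ^ a * Q ^ 2) := by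
      have h1 : ((L : ℝ) ^ n) ^ 2 = ((L : ℝ) ^ 2) ^ n := by
        rw [← pow_mul, ← pow_mul, mul_comm]
      have h2 : ((4 : ℝ) ^ n) ^ 2 = 16 ^ n := by
        rw [← pow_mul, mul_comm, pow_mul]; norm_num
      have h3 : (rho k ^ a) ^ 2 = (rho k ^ 2) ^ a := by
        rw [← pow_mul, ← pow_mul, mul_comm]
      have h4 : (16 * (L : ℝ) ^ 2) ^ n = 16 ^ n * ((L : ℝ) ^ 2) ^ n := mul_pow _ _ _
      rw [h4, mul_pow, mul_pow, mul_pow, h1, h2, h3]
      ring
    have e2 : (16 * (L : ℝ) ^ 2) ^ n ≤ ((n : ℝ) / 625) ^ n := by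
      apply pow_le_pow_left₀ (by positivity)
      rw [le_div_iff₀ (by norm_num)]
      nlinarith
    have e3 : (rho k ^ 2) ^ a * Q ^ 2 ≤ (9 / (n : ℝ)) ^ a * (9 / (n : ℝ)) ^ b :=
      mul_le_mul hA hB (by positivity) (by positivity)
    rw [e1]
    calc (16 * (L : ℝ) ^ 2) ^ n * ((rho k ^ 2) ^ a * Q ^ 2)
        ≤ ((n : ℝ) / 625) ^ n * ((9 / (n : ℝ)) ^ a * (9 / (n : ℝ)) ^ b) :=
          mul_le_mul e2 e3 (by positivity) (by positivity)
      _ = ((n : ℝ) ^ r * 9 ^ (a + b)) / 625 ^ n := by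
          rw [← pow_add, div_pow, div_pow]
          have e5 : (n : ℝ) ^ n = (n : ℝ) ^ r * (n : ℝ) ^ (a + b) := by
            rw [← pow_add]
            congr 1
            omega
          rw [e5]
          field_simp
      _ ≤ (17 ^ n * 9 ^ n) / 625 ^ n := by
          have e6 : (9 : ℝ) ^ (a + b) ≤ 9 ^ n := pow_le_pow_right₀ (by norm_num) (by omega)
          gcongr
      _ = (153 / 625) ^ n := by
          rw [← mul_pow, ← div_pow]; norm_num
      _ ≤ (1 / 4) ^ n := pow_le_pow_left₀ (by norm_num) (by norm_num) n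
      _ = ((1 / 2 : ℝ) ^ n) ^ 2 := by
          rw [← pow_mul, mul_comm n 2, pow_mul]; norm_num
  exact le_of_sq_le_sq hsq (by positivity)

end Vale.Agent.P160
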