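import Vale.Agent.P160.Rho

/-!
# P160: the union bound for supports with at least `2 n / log n` coordinates outside
-/

namespace Vale.Agent.P160

open Finset

namespace AsymLog

theorem prod_sq (m : ℕ) : (m.factorial : ℝ) * (∏ i ∈ range m, rho (i + 1)) ^ 2 ≤ 1 := by
  induction m with
  | zero => simp
  | succ m ih =>
    rw [prod_range_succ, Nat.factorial_succ, mul_pow]
    push_cast
    have h1 := rho_sq (m + 1)
    push_cast at h1
    have h2 : 0 ≤ (m.factorial : ℝ) * (∏ i ∈ range m, rho (i + 1)) ^ 2 := by positivity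
    have h3 : 0 ≤ ((m : ℝ) + 1) * rho (m + 1) ^ 2 := by positivity
    calc ((m : ℝ) + 1) * m.factorial * ((∏ i ∈ range m, rho (i + 1)) ^ 2 * rho (m + 1) ^ 2)
        = (m.factorial * (∏ i ∈ range m, rho (i + 1)) ^ 2) * (((m : ℝ) + 1) * rho (m + 1) ^ 2) := by
          ring
      _ ≤ 1 * 1 := mul_le_mul ih h1 h3 zero_le_one
      _ = 1 := one_mul 1

/-- all factors may be replaced by the factors with the smallest numbers -/
theorem prod_le {k a b : ℕ} (h : a + b ≤ k) :
    rho k ^ a * ∏ i ∈ range b, rho (i + 1) ≤ ∏ i ∈ range (a + b), rho (i + 1) := by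
  rw [add_comm a b, prod_range_add, mul_comm]
  refine mul_le_mul_of_nonneg_left ?_ (prod_nonneg fun i _ => (rho_pos _).le)
  rw [← card_range a, ← prod_const, card_range]
  refine prod_le_prod (fun i _ => (rho_pos _).le) fun i hi => ?_
  rw [mem_range] at hi
  exact rho_antitone (by omega)

theorem log_factorial_ge (z : ℕ) (hz : 0 < z) :
    (z : ℝ) * Real.log z - z ≤ Real.log z.factorial := by
  have h := Real.pow_div_factorial_le_exp (z : ℝ) (Nat.cast_nonneg z) z
  have hz' : (0 : ℝ) < z := Nat.cast_pos.2 hz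
  have hf : (0 : ℝ) < z.factorial := Nat.cast_pos.2 z.factorial_pos
  have h2 := Real.log_le_log (by positivity) h
  rw [Real.log_exp, Real.log_div (by positivity) hf.ne', Real.log_pow] at h2
  linarith

theorem main_ineq {n z L M : ℝ} (hn : 0 < n) (hL : 100 ≤ L) (hM : M ≤ L / 100)
    (hLn : L ≤ n / 100) (hz : 2 * n / L ≤ z) :
    (2 * z + 1) * L - 5 / 2 * (z * (Real.log 2 + L - M) - z) + n * Real.log 2 ≤ 0 := by
  have h0 : 0 < L := by linarith
  have hzL : 2 * n ≤ z * L := by rwa [div_le_iff₀ h0] at hz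
  have hz0 : 0 ≤ z := by
    have : 0 ≤ 2 * n / L := by positivity
    linarith
  have hlog2 : Real.log 2 < 0.6931471808 := Real.log_two_lt_d9
  have hlog2' : 0 < Real.log 2 := Real.log_pos (by norm_num)
  have h1 : z * M ≤ z * (L / 100) := mul_le_mul_of_nonneg_left hM hz0
  have h2 : z * 100 ≤ z * L := mul_le_mul_of_nonneg_left hL hz0
  have h3 : 0 ≤ z * Real.log 2 := by positivity
  have h4 : n * Real.log 2 ≤ n * 0.6931471808 := mul_le_mul_of_nonneg_left hlog2.le hn.le
  nlinarith

theorem eventually_facts : ∃ n0 : ℕ, ∀ n ≥ n0, 0 < (n : ℝ) ∧ 100 ≤ Real.log n ∧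
    Real.log (Real.log n) ≤ Real.log n / 100 ∧ Real.log n ≤ (n : ℝ) / 100 := by
  have h1 : ∀ᶠ x : ℝ in Filter.atTop, Real.log x ≤ x / 100 := by
    have h := Real.isLittleO_log_id_atTop.bound (c := 1 / 100) (by norm_num)
    filter_upwards [h, Filter.eventually_ge_atTop 0] with x hx hx0
    have h2 : |Real.log x| ≤ 1 / 100 * |x| := by simpa using hx
    have h3 := (le_abs_self _).trans h2
    rw [abs_of_nonneg hx0] at h3
    linarith
  have hc : Filter.Tendsto (fun n : ℕ => (n : ℝ)) Filter.atTop Filter.atTop :=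
    tendsto_natCast_atTop_atTop
  have hl : Filter.Tendsto (fun n : ℕ => Real.log n) Filter.atTop Filter.atTop :=
    Real.tendsto_log_atTop.comp hc
  have := (((hc.eventually_gt_atTop 0).and (hl.eventually_ge_atTop 100)).and
    (hl.eventually h1)).and (hc.eventually h1)
  obtain ⟨n0, h⟩ := Filter.eventually_atTop.1 this
  exact ⟨n0, fun n hn => ⟨(h n hn).1.1.1, (h n hn).1.1.2, (h n hn).1.2, (h n hn).2⟩⟩

theorem log_choose_le {n z : ℕ} (hz : z ≤ n) :
    Real.log (n.choose z) ≤ z * Real.log n - Real.log z.factorial := by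
  have h := Nat.choose_le_pow_div (α := ℝ) z n
  have h1 : (0 : ℝ) < n.choose z := Nat.cast_pos.2 (Nat.choose_pos hz)
  have hf : (z.factorial : ℝ) ≠ 0 := Nat.cast_ne_zero.2 z.factorial_ne_zero
  have h2 := Real.log_le_log h1 h
  have h3 : ((n : ℝ) ^ z) ≠ 0 := by
    intro h0
    rw [h0, zero_div] at h
    linarith
  rw [Real.log_div h3 hf, Real.log_pow] at h2
  exact h2

end AsymLog

open AsymLog in
/-- thresholds `2 n / log n` -/
theorem asym_log : ∃ n0 : ℕ, ∀ n ≥ n0, ∀ k a b : ℕ, n + 1 ≤ 2 * k →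
    2 * (n : ℝ) / Real.log n ≤ n - k → k ≤ n → a + b + k = n + 1 → b ≤ k →
    (n.choose k : ℝ) * (n.choose (k - 1)) * (rho k ^ a * ∏ i ∈ range b, rho (i + 1))
      ≤ (1 / 2) ^ n := by
  obtain ⟨n0, h0⟩ := eventually_facts
  refine ⟨n0, fun n hn k a b hk hz hkn hab hbk => ?_⟩
  obtain ⟨hn0, hL, hM, hLn⟩ := h0 n hn
  obtain ⟨z, rfl⟩ : ∃ z, n = k + z := ⟨n - k, by omega⟩
  have hzr : 2 * ((k + z : ℕ) : ℝ) / Real.log ((k + z : ℕ) : ℝ) ≤ z := by
    refine hz.trans (le_of_eq ?_)
    push_cast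
    ring
  have hlog : 0 < Real.log ((k + z : ℕ) : ℝ) := by linarith
  have hz0 : (0 : ℝ) < z := lt_of_lt_of_le (by positivity) hzr
  have hzn : 0 < z := Nat.cast_pos.1 hz0
  have hab' : a + b = z + 1 := by omega
  have e1 : ((k + z).choose k : ℝ) = (k + z).choose z := by
    rw [Nat.choose_symm_add]
  have e2 : ((k + z).choose (k - 1) : ℝ) = (k + z).choose (z + 1) := by
    have : k - 1 = (k + z) - (z + 1) := by omega
    rw [this, Nat.choose_symm (by omega)]
  set P : ℝ := ∏ i ∈ range (z + 1), rho (i + 1) with hP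
  have hP0 : 0 < P := prod_pos fun i _ => rho_pos _
  have h1 : rho k ^ a * ∏ i ∈ range b, rho (i + 1) ≤ P := by
    rw [hP, ← hab']
    exact prod_le (by omega)
  have h2 : Real.log ((z + 1).factorial) + 2 * Real.log P ≤ 0 := by
    have h := prod_sq (z + 1)
    have hf : (0 : ℝ) < ((z + 1).factorial : ℝ) := Nat.cast_pos.2 (z + 1).factorial_pos
    have h3 := Real.log_le_log (by positivity) h
    rw [Real.log_mul hf.ne' (by positivity), Real.log_pow, Real.log_one] at h3
    exact_mod_cast h3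
  have h3 : Real.log (z.factorial) ≤ Real.log ((z + 1).factorial) :=
    Real.log_le_log (Nat.cast_pos.2 z.factorial_pos)
      (Nat.cast_le.2 (Nat.factorial_le (Nat.le_succ z)))
  have h4 := log_factorial_ge z hzn
  have h5 := log_choose_le (n := k + z) (z := z) (by omega)
  have h6 := log_choose_le (n := k + z) (z := z + 1) (by omega)
  have h7 : Real.log 2 + Real.log ((k + z : ℕ) : ℝ) - Real.log (Real.log ((k + z : ℕ) : ℝ)) ≤
      Real.log z := by
    have h8 := Real.log_le_log (by positivity) hzr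
    rw [Real.log_div (by positivity) hlog.ne', Real.log_mul (by norm_num) hn0.ne'] at h8
    exact h8
  have h9 := main_ineq hn0 hL hM hLn hzr
  have hc1 : (0 : ℝ) < (k + z).choose z := Nat.cast_pos.2 (Nat.choose_pos (by omega))
  have hc2 : (0 : ℝ) < (k + z).choose (z + 1) := Nat.cast_pos.2 (Nat.choose_pos (by omega))
  rw [e1, e2]
  refine (mul_le_mul_of_nonneg_left h1 (by positivity)).trans ?_
  rw [← Real.log_le_log_iff (by positivity) (by positivity), Real.log_mul (by positivity) hP0.ne',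
    Real.log_mul hc1.ne' hc2.ne', Real.log_pow, Real.log_div one_ne_zero two_ne_zero,
    Real.log_one]
  have h10 : (z : ℝ) * (Real.log 2 + Real.log ((k + z : ℕ) : ℝ) -
      Real.log (Real.log ((k + z : ℕ) : ℝ))) ≤ z * Real.log z :=
    mul_le_mul_of_nonneg_left h7 hz0.le
  push_cast at *
  nlinarith

end Vale.Agent.P160
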