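import Vale.Agent.P160.SharpDefs

/-!
# P160, row PAR2: two different pairs of columns are parallel with probability at most `256 4^(-n)`
-/

namespace Vale.Agent.P160

open Finset

namespace Par2

theorem sg_eq (x y b : Bool) (h : sg x = sg b * sg y) : x = (y == b) := by
  cases x <;> cases y <;> cases b <;> simp [sg] at h ⊢ <;> norm_num at h

/-- The coordinates determined by the two relations. -/
def M {n : ℕ} (a a' k l : Fin n) : Finset (Fin n) := ({a, a', k, l} : Finset (Fin n))ᶜ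

theorem card_M {n : ℕ} (a a' k l : Fin n) : n ≤ #(M a a' k l) + 4 := by
  have h1 : #({a, a', k, l} : Finset (Fin n)) ≤ 4 := Finset.card_le_four
  have h2 := Finset.card_compl ({a, a', k, l} : Finset (Fin n))
  rw [Fintype.card_fin] at h2
  unfold M
  omega

theorem mem_M {n : ℕ} {a a' k l m : Fin n} (h : m ∈ M a a' k l) :
    m ≠ a ∧ m ≠ a' ∧ m ≠ k ∧ m ≠ l := by
  unfold M at h
  rw [Finset.mem_compl] at h
  simp only [Finset.mem_insert, Finset.mem_singleton, not_or] at h
  exact ⟨h.1, h.2.1, h.2.2.1, h.2.2.2⟩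

/-- The determined coordinates. -/
def D {n : ℕ} (a a' k l : Fin n) : Finset (Sym2 (Fin n)) :=
  (M a a' k l).image (fun m => s(a, m)) ∪ (M a a' k l).image (fun m => s(k, m))

theorem inj {n : ℕ} (a : Fin n) : Function.Injective (fun m : Fin n => s(a, m)) := by
  intro x y h
  have h' : s(a, x) = s(a, y) := h
  rw [Sym2.eq_iff] at h'
  rcases h' with h1 | h1
  · exact h1.2
  · exact h1.2.trans h1.1

theorem card_D {n : ℕ} {a a' k l : Fin n} (hak : a ≠ k) : 2 * n ≤ #(D a a' k l) + 8 := by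
  have h1 : #(D a a' k l) = #(M a a' k l) + #(M a a' k l) := by
    unfold D
    rw [Finset.card_union_of_disjoint, Finset.card_image_of_injective _ (inj a),
      Finset.card_image_of_injective _ (inj k)]
    rw [Finset.disjoint_left]
    intro e he he'
    obtain ⟨m, hm, rfl⟩ := Finset.mem_image.mp he
    obtain ⟨x, hx, hx'⟩ := Finset.mem_image.mp he'
    have h2 : s(k, x) = s(a, m) := hx'
    rw [Sym2.eq_iff] at h2
    rcases h2 with h2 | h2
    · exact hak h2.1.symm
    · exact (mem_M hx).1 h2.2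
  have h2 := card_M a a' k l
  omega

theorem agree {n : ℕ} {a a' k l : Fin n} (haa : a ≠ a') (hkl : k ≠ l) (hal : a ≠ l)
    {b b' : Bool} {s t : Sym2 (Fin n) → Bool}
    (hs : ∀ m, s s(a, m) = (s s(a', m) == b)) (hs' : ∀ m, s s(k, m) = (s s(l, m) == b'))
    (ht : ∀ m, t s(a, m) = (t s(a', m) == b)) (ht' : ∀ m, t s(k, m) = (t s(l, m) == b'))
    (h : ∀ e, e ∉ D a a' k l → s e = t e) : s = t := by
  have h2 : ∀ m ∈ M a a' k l, s s(k, m) = t s(k, m) := by
    intro m hm
    rw [hs', ht', h]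
    intro hD
    unfold D at hD
    rw [Finset.mem_union] at hD
    rcases hD with hD | hD
    · obtain ⟨x, hx, hx'⟩ := Finset.mem_image.mp hD
      have h3 : s(a, x) = s(l, m) := hx'
      rw [Sym2.eq_iff] at h3
      rcases h3 with h3 | h3
      · exact hal h3.1
      · exact (mem_M hx).2.2.2 h3.2
    · obtain ⟨x, hx, hx'⟩ := Finset.mem_image.mp hD
      have h3 : s(k, x) = s(l, m) := hx'
      rw [Sym2.eq_iff] at h3
      rcases h3 with h3 | h3
      · exact hkl h3.1
      · exact (mem_M hx).2.2.2 h3.2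
  have h1 : ∀ m ∈ M a a' k l, s s(a, m) = t s(a, m) := by
    intro m hm
    rw [hs, ht]
    have h4 : s s(a', m) = t s(a', m) := by
      by_cases hD : s(a', m) ∈ D a a' k l
      · unfold D at hD
        rw [Finset.mem_union] at hD
        rcases hD with hD | hD
        · obtain ⟨x, hx, hx'⟩ := Finset.mem_image.mp hD
          have h3 : s(a, x) = s(a', m) := hx'
          rw [Sym2.eq_iff] at h3
          rcases h3 with h3 | h3
          · exact absurd h3.1 haa
          · exact absurd h3.1.symm (mem_M hm).1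
        · obtain ⟨x, hx, hx'⟩ := Finset.mem_image.mp hD
          have h3 : s(k, x) = s(a', m) := hx'
          rw [← h3]
          exact h2 x hx
      · exact h _ hD
    rw [h4]
  funext e
  by_cases he : e ∈ D a a' k l
  · unfold D at he
    rw [Finset.mem_union] at he
    rcases he with he | he
    · obtain ⟨m, hm, rfl⟩ := Finset.mem_image.mp he
      exact h1 m hm
    · obtain ⟨m, hm, rfl⟩ := Finset.mem_image.mp he
      exact h2 m hm
  · exact h e he

theorem core {n : ℕ} {a a' k l : Fin n} (haa : a ≠ a') (hkl : k ≠ l) (hak : a ≠ k) (hal : a ≠ l)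
    (b b' : Bool) (E : Set (Sym2 (Fin n) → Bool))
    (hE : ∀ s ∈ E, ∀ m, s s(a, m) = (s s(a', m) == b))
    (hE' : ∀ s ∈ E, ∀ m, s s(k, m) = (s s(l, m) == b')) :
    pr n E ≤ 256 * (1 / 2) ^ n * (1 / 2) ^ n := by
  let r : E → ({e // e ∈ (D a a' k l)ᶜ} → Bool) := fun s e => s.1 e.1
  have hr : Function.Injective r := by
    intro s t hst
    apply Subtype.ext
    refine agree haa hkl hal (hE s.1 s.2) (hE' s.1 s.2) (hE t.1 t.2) (hE' t.1 t.2) ?_
    intro e he
    have := congrFun hst ⟨e, Finset.mem_compl.mpr he⟩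
    exact this
  have hcard := Nat.card_le_card_of_injective r hr
  rw [Nat.card_eq_fintype_card (α := {e // e ∈ (D a a' k l)ᶜ} → Bool), Fintype.card_fun,
    Fintype.card_bool, Fintype.card_coe] at hcard
  have hsum := Finset.card_compl_add_card (D a a' k l)
  have hD := card_D (a' := a') (l := l) hak
  have hR : (Nat.card E : ℝ) ≤ 2 ^ #(D a a' k l)ᶜ := by exact_mod_cast hcard
  unfold pr
  rw [div_le_iff₀ (by positivity)]
  refine hR.trans ?_
  have h1 : (2 : ℝ) ^ Fintype.card (Sym2 (Fin n)) =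
      2 ^ #(D a a' k l)ᶜ * 2 ^ #(D a a' k l) := by
    rw [← pow_add, hsum]
  rw [h1]
  have h2 : (1 : ℝ) ≤ 256 * (1 / 2) ^ n * (1 / 2) ^ n * 2 ^ #(D a a' k l) := by
    have h3 : (2 : ℝ) ^ (2 * n) ≤ 2 ^ (#(D a a' k l) + 8) :=
      pow_le_pow_right₀ (by norm_num) hD
    have h4 : (2 : ℝ) ^ (#(D a a' k l) + 8) = 256 * 2 ^ #(D a a' k l) := by
      rw [pow_add]; norm_num; ring
    rw [h4, two_mul, pow_add] at h3
    have h5 : (1 / 2 : ℝ) ^ n * 2 ^ n = 1 := by
      rw [← mul_pow]; norm_num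
    have h6 : (0 : ℝ) < (1 / 2) ^ n := by positivity
    calc (1 : ℝ) = ((1 / 2) ^ n * 2 ^ n) * ((1 / 2) ^ n * 2 ^ n) := by rw [h5]; norm_num
      _ = (1 / 2) ^ n * (1 / 2) ^ n * (2 ^ n * 2 ^ n) := by ring
      _ ≤ (1 / 2) ^ n * (1 / 2) ^ n * (256 * 2 ^ #(D a a' k l)) :=
          mul_le_mul_of_nonneg_left h3 (by positivity)
      _ = 256 * (1 / 2) ^ n * (1 / 2) ^ n * 2 ^ #(D a a' k l) := by ring
  calc (2 : ℝ) ^ #(D a a' k l)ᶜ = 1 * 2 ^ #(D a a' k l)ᶜ := (one_mul _).symm
    _ ≤ (256 * (1 / 2) ^ n * (1 / 2) ^ n * 2 ^ #(D a a' k l)) * 2 ^ #(D a a' k l)ᶜ :=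
        mul_le_mul_of_nonneg_right h2 (by positivity)
    _ = 256 * (1 / 2) ^ n * (1 / 2) ^ n * (2 ^ #(D a a' k l)ᶜ * 2 ^ #(D a a' k l)) := by ring

theorem par_rel {n : ℕ} {i j : Fin n} {b : Bool} {s : Sym2 (Fin n) → Bool} (h : s ∈ Par i j b)
    (m : Fin n) : s s(i, m) = (s s(j, m) == b) := by
  have h1 : mat s m i = sg b * mat s m j := h m
  have h2 : sg (s s(m, i)) = sg b * sg (s s(m, j)) := h1
  rw [Sym2.eq_swap (a := i), Sym2.eq_swap (a := j)]
  exact sg_eq _ _ _ h2

theorem par_rel' {n : ℕ} {i j : Fin n} {b : Bool} {s : Sym2 (Fin n) → Bool} (h : s ∈ Par i j b)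
    (m : Fin n) : s s(j, m) = (s s(i, m) == b) := by
  have h1 := par_rel h m
  rw [h1]
  cases s s(j, m) <;> cases b <;> rfl

end Par2

open Par2 in
/-- [PAR2] Par2.lean -/
theorem pr_par_inter {n : ℕ} {i j k l : Fin n} (hij : i < j) (hkl : k < l) (b b' : Bool)
    (h : (i, j, b) ≠ (k, l, b')) :
    pr n (Par i j b ∩ Par k l b') ≤ 256 * (1 / 2) ^ n * (1 / 2) ^ n := by
  by_cases h1 : i = k ∧ j = l
  · -- same pair, opposite signs
    obtain ⟨rfl, rfl⟩ := h1
    have hb : b ≠ b' := fun hb => h (by rw [hb])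
    have hE : Par i j b ∩ Par i j b' = ∅ := by
      apply Set.eq_empty_of_forall_notMem
      rintro s ⟨h1, h2⟩
      have h3 := par_rel h1 i
      have h4 := par_rel h2 i
      rw [h3] at h4
      revert h4 hb
      cases s s(j, i) <;> cases b <;> cases b' <;> simp
    rw [hE]
    unfold pr
    simp
  · by_cases hi : i = k ∨ i = l
    · have hj : j ≠ k ∧ j ≠ l := by
        rcases hi with hi | hi
        · refine ⟨fun hj => ?_, fun hj => h1 ⟨hi, hj⟩⟩
          rw [hj, hi] at hij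
          exact lt_irrefl _ hij
        · refine ⟨fun hj => ?_, fun hj => ?_⟩
          · rw [hi, hj] at hij
            exact lt_asymm hij hkl
          · rw [hi, hj] at hij
            exact lt_irrefl _ hij
      exact core hij.ne' hkl.ne hj.1 hj.2 b b' _ (fun s hs m => par_rel' hs.1 m)
        (fun s hs m => par_rel hs.2 m)
    · push Not at hi
      exact core hij.ne hkl.ne hi.1 hi.2 b b' _ (fun s hs m => par_rel hs.1 m)
        (fun s hs m => par_rel hs.2 m)

end Vale.Agent.P160
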