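import Vale.Agent.P160.Par1
import Vale.Agent.P160.Par2

/-! P160, row BON (Bonferroni) -/

namespace Vale.Agent.P160

open Finset

namespace Bon

/-- Bonferroni's inequality, pointwise. -/
theorem point {ι : Type*} [DecidableEq ι] (T : Finset ι) (P : ι → Prop) [DecidablePred P] :
    ∑ t ∈ T, (if P t then (1 : ℝ) else 0) -
      ∑ t ∈ T, ∑ t' ∈ T.erase t, (if P t ∧ P t' then (1 : ℝ) else 0) ≤
    if ∃ t ∈ T, P t then 1 else 0 := by
  classical
  set m : ℝ := ∑ t ∈ T, (if P t then (1 : ℝ) else 0) with hm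
  have h1 : ∑ t ∈ T, ∑ t' ∈ T.erase t, (if P t ∧ P t' then (1 : ℝ) else 0) = m * m - m := by
    have h2 : ∀ t ∈ T, ∑ t' ∈ T.erase t, (if P t ∧ P t' then (1 : ℝ) else 0) =
        (if P t then (1 : ℝ) else 0) * m - (if P t then (1 : ℝ) else 0) := by
      intro t ht
      have h3 : ∑ t' ∈ T, (if P t ∧ P t' then (1 : ℝ) else 0) =
          (if P t then (1 : ℝ) else 0) * m := by
        rw [hm, mul_sum]
        refine sum_congr rfl fun t' _ => ?_
        by_cases a : P t <;> by_cases b : P t' <;> simp [a, b]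
      have h4 := Finset.add_sum_erase T (fun t' => if P t ∧ P t' then (1 : ℝ) else 0) ht
      simp only [and_self] at h4
      rw [h3] at h4
      linarith
    rw [sum_congr rfl h2, sum_sub_distrib, ← sum_mul, ← hm]
  rw [h1]
  split_ifs with h
  · nlinarith [sq_nonneg (m - 1)]
  · have hm0 : m = 0 := by
      rw [hm]
      refine sum_eq_zero fun t ht => ?_
      rw [if_neg (fun hP => h ⟨t, ht, hP⟩)]
    rw [hm0]; norm_num

theorem pr_eq_sum (n : ℕ) (E : Set (Sym2 (Fin n) → Bool)) [DecidablePred (· ∈ E)] :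
    pr n E = (∑ s : Sym2 (Fin n) → Bool, (if s ∈ E then (1 : ℝ) else 0)) /
      2 ^ Fintype.card (Sym2 (Fin n)) := by
  classical
  unfold pr
  congr 1
  rw [Finset.sum_boole, Nat.card_eq_fintype_card, Fintype.card_subtype]

/-- Bonferroni's inequality for `pr`. -/
theorem bonferroni (n : ℕ) {ι : Type*} [DecidableEq ι] (T : Finset ι)
    (A : ι → Set (Sym2 (Fin n) → Bool)) :
    ∑ t ∈ T, pr n (A t) - ∑ t ∈ T, ∑ t' ∈ T.erase t, pr n (A t ∩ A t') ≤
      pr n {s | ∃ t ∈ T, s ∈ A t} := by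
  classical
  have hN : (0 : ℝ) < 2 ^ Fintype.card (Sym2 (Fin n)) := by positivity
  rw [pr_eq_sum n {s | ∃ t ∈ T, s ∈ A t}, le_div_iff₀ hN, sub_mul, sum_mul, sum_mul]
  have e1 : ∀ t ∈ T, pr n (A t) * 2 ^ Fintype.card (Sym2 (Fin n)) =
      ∑ s : Sym2 (Fin n) → Bool, (if s ∈ A t then (1 : ℝ) else 0) := fun t _ => by
    rw [pr_eq_sum, div_mul_cancel₀ _ hN.ne']
  have e2 : ∀ t ∈ T, (∑ t' ∈ T.erase t, pr n (A t ∩ A t')) * 2 ^ Fintype.card (Sym2 (Fin n)) =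
      ∑ s : Sym2 (Fin n) → Bool, ∑ t' ∈ T.erase t,
        (if s ∈ A t ∧ s ∈ A t' then (1 : ℝ) else 0) := fun t _ => by
    rw [sum_mul, sum_comm]
    refine sum_congr rfl fun t' _ => ?_
    rw [pr_eq_sum, div_mul_cancel₀ _ hN.ne']
    rfl
  rw [sum_congr rfl e1, sum_congr rfl e2, sum_comm, sum_comm (s := T), ← sum_sub_distrib]
  refine sum_le_sum fun s _ => ?_
  exact point T (fun t => s ∈ A t)

theorem card_T (n : ℕ) : ((univ.filter fun t : Fin n × Fin n × Bool => t.1 < t.2.1).card : ℝ) =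
    (n : ℝ) * (n - 1) := by
  have h1 : (univ.filter fun t : Fin n × Fin n × Bool => t.1 < t.2.1).card =
      ∑ j : Fin n, (j : ℕ) * 2 := by
    rw [Finset.card_filter, Fintype.sum_prod_type]
    simp only [Fintype.sum_prod_type]
    rw [Finset.sum_comm]
    refine sum_congr rfl fun j _ => ?_
    have h2 : ∀ i : Fin n, ∑ _b : Bool, (if i < j then 1 else 0) = (if i < j then 1 else 0) * 2 := by
      intro i
      rw [sum_const, card_univ, Fintype.card_bool, smul_eq_mul, mul_comm]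
    simp only [h2]
    rw [← sum_mul, ← Finset.card_filter]
    congr 1
    have h4 : (univ.filter fun i : Fin n => i < j) = Iio j := by ext i; simp
    rw [h4, Fin.card_Iio]
  rw [h1]
  have h3 : ∑ j : Fin n, (j : ℕ) * 2 = n * (n - 1) := by
    rw [← sum_mul, Fin.sum_univ_eq_sum_range (fun i => i), Finset.sum_range_id_mul_two]
  rw [h3]
  rcases Nat.eq_zero_or_pos n with h | h
  · subst h; simp
  · push_cast [Nat.cast_sub h]
    ring

end Bon

/-- [BON] Bon.lean (uses [PAR1], [PAR2]; Bonferroni) -/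
theorem dep_lower (n : ℕ) :
    ((n : ℝ) * (n - 1) - 256 * (n : ℝ) ^ 4 * (1 / 2) ^ n) * (1 / 2) ^ n ≤ pr n (Dep n) := by
  classical
  set T : Finset (Fin n × Fin n × Bool) := univ.filter fun t => t.1 < t.2.1 with hT
  have hb := Bon.bonferroni n T (fun t => Par t.1 t.2.1 t.2.2)
  have hset : {s | ∃ t ∈ T, s ∈ Par t.1 t.2.1 t.2.2} = Dep n := by
    ext s
    constructor
    · rintro ⟨⟨i, j, b⟩, ht, hs⟩
      exact ⟨i, j, (mem_filter.1 ht).2, b, hs⟩
    · rintro ⟨i, j, hij, b, hs⟩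
      exact ⟨(i, j, b), mem_filter.2 ⟨mem_univ _, hij⟩, hs⟩
  rw [hset] at hb
  refine le_trans ?_ hb
  have h1 : ∑ t ∈ T, pr n (Par t.1 t.2.1 t.2.2) = (n : ℝ) * (n - 1) * (1 / 2) ^ n := by
    rw [sum_congr rfl (fun t ht => pr_par (ne_of_lt (mem_filter.1 ht).2) t.2.2), sum_const,
      nsmul_eq_mul, Bon.card_T]
  have hTc : (T.card : ℝ) ≤ (n : ℝ) ^ 2 := by
    rw [hT, Bon.card_T]
    have : (0 : ℝ) ≤ n := Nat.cast_nonneg _
    nlinarith
  have h2 : ∑ t ∈ T, ∑ t' ∈ T.erase t, pr n (Par t.1 t.2.1 t.2.2 ∩ Par t'.1 t'.2.1 t'.2.2) ≤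
      256 * (n : ℝ) ^ 4 * (1 / 2) ^ n * (1 / 2) ^ n := by
    have h3 : ∀ t ∈ T, ∑ t' ∈ T.erase t, pr n (Par t.1 t.2.1 t.2.2 ∩ Par t'.1 t'.2.1 t'.2.2) ≤
        (n : ℝ) ^ 2 * (256 * (1 / 2) ^ n * (1 / 2) ^ n) := by
      intro t ht
      refine (sum_le_card_nsmul _ _ (256 * (1 / 2) ^ n * (1 / 2) ^ n) fun t' ht' => ?_).trans ?_
      · obtain ⟨hne, ht'⟩ := mem_erase.1 ht'
        refine pr_par_inter (mem_filter.1 ht).2 (mem_filter.1 ht').2 t.2.2 t'.2.2 ?_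
        intro h
        exact hne h.symm
      · rw [nsmul_eq_mul]
        refine mul_le_mul_of_nonneg_right ?_ (by positivity)
        refine le_trans ?_ hTc
        exact_mod_cast card_le_card (erase_subset _ _)
    refine (sum_le_card_nsmul _ _ _ h3).trans ?_
    rw [nsmul_eq_mul]
    calc (T.card : ℝ) * ((n : ℝ) ^ 2 * (256 * (1 / 2) ^ n * (1 / 2) ^ n)) ≤
        (n : ℝ) ^ 2 * ((n : ℝ) ^ 2 * (256 * (1 / 2) ^ n * (1 / 2) ^ n)) :=
          mul_le_mul_of_nonneg_right hTc (by positivity)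
      _ = 256 * (n : ℝ) ^ 4 * (1 / 2) ^ n * (1 / 2) ^ n := by ring
  rw [h1]
  calc ((n : ℝ) * (n - 1) - 256 * (n : ℝ) ^ 4 * (1 / 2) ^ n) * (1 / 2) ^ n =
      (n : ℝ) * (n - 1) * (1 / 2) ^ n - 256 * (n : ℝ) ^ 4 * (1 / 2) ^ n * (1 / 2) ^ n := by ring
    _ ≤ _ := by linarith

end Vale.Agent.P160
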