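import Mathlib

/-! The Erdos-Littlewood-Offord inequality, from Sperner's theorem. Mathlib only. -/

namespace Vale.Agent.P160.SpernerLO

open Finset

open Classical in
theorem lo_fintype {α : Type*} [Fintype α] [DecidableEq α] (v : α → ℝ) (hv : ∀ a, v a ≠ 0) (c : ℝ) :
    #{x : α → Bool | ∑ a, (if x a then (1 : ℝ) else -1) * v a = c} ≤
      (Fintype.card α).choose (Fintype.card α / 2) := by
  set X : Finset (α → Bool) :=
    {x : α → Bool | ∑ a, (if x a then (1 : ℝ) else -1) * v a = c} with hX
  let A : (α → Bool) → Finset α := fun x => univ.filter (fun a => x a = decide (0 < v a))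
  have hinj : Function.Injective A := by
    intro x y h
    funext a
    have h1 := Finset.ext_iff.mp h a
    simp only [A, mem_filter, mem_univ, true_and] at h1
    cases hx : x a <;> cases hy : y a <;> cases hd : decide (0 < v a) <;>
      simp [hx, hy, hd] at h1 ⊢
  have hval : ∀ x : α → Bool, ∑ a, (if x a then (1 : ℝ) else -1) * v a =
      2 * ∑ a ∈ A x, |v a| - ∑ a, |v a| := by
    intro x
    have h1 : ∑ a ∈ A x, |v a| = ∑ a, (if x a = decide (0 < v a) then |v a| else 0) := by
      rw [Finset.sum_filter]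
    rw [h1, Finset.mul_sum, ← Finset.sum_sub_distrib]
    refine Finset.sum_congr rfl fun a _ => ?_
    rcases lt_or_gt_of_ne (hv a) with h | h
    · have h2 : ¬ 0 < v a := not_lt.mpr h.le
      rw [abs_of_neg h]
      cases hx : x a <;> simp [h2] <;> ring
    · rw [abs_of_pos h]
      cases hx : x a <;> simp [h] <;> ring
  have hanti : IsAntichain (· ⊆ ·) ((X.image A : Finset (Finset α)) : Set (Finset α)) := by
    intro B hB B' hB' hne hsub
    obtain ⟨x, hx, rfl⟩ := Finset.mem_image.mp (Finset.mem_coe.mp hB)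
    obtain ⟨y, hy, rfl⟩ := Finset.mem_image.mp (Finset.mem_coe.mp hB')
    have hx' : ∑ a, (if x a then (1 : ℝ) else -1) * v a = c := (Finset.mem_filter.mp hx).2
    have hy' : ∑ a, (if y a then (1 : ℝ) else -1) * v a = c := (Finset.mem_filter.mp hy).2
    rw [hval] at hx' hy'
    obtain ⟨a, ha, ha'⟩ := Finset.exists_of_ssubset (Finset.ssubset_iff_subset_ne.mpr ⟨hsub, hne⟩)
    have h3 : ∑ a ∈ A x, |v a| < ∑ a ∈ A y, |v a| :=
      Finset.sum_lt_sum_of_subset hsub ha ha' (abs_pos.mpr (hv a)) (fun _ _ _ => abs_nonneg _)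
    linarith
  calc #X = #(X.image A) := (Finset.card_image_of_injective X hinj).symm
    _ ≤ _ := hanti.sperner

open Classical in
theorem lo_sum {ι : Type*} (T : Finset ι) (v : ι → ℝ) (hv : ∀ j ∈ T, v j ≠ 0) (c : ℝ) :
    #{x : T → Bool | ∑ j : T, (if x j then (1 : ℝ) else -1) * v j = c} ≤
      (#T).choose (#T / 2) := by
  have h := lo_fintype (α := T) (fun j => v j) (fun j => hv j j.2) c
  rw [Fintype.card_coe] at h
  exact h

end Vale.Agent.P160.SpernerLO
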