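import Vale.Agent.P160.Defs
import Vale.Agent.P160.SpernerLO

namespace Vale.Agent.P160

open Finset

open Classical in
/-- [LO] LO.lean -/
theorem lo {ι : Type*} (T : Finset ι) (v : ι → ℝ) (hv : ∀ j ∈ T, v j ≠ 0) (c : ℝ) :
    #{x : T → Bool | ∑ j : T, sg (x j) * v j = c} ≤ (#T).choose (#T / 2) := by
  exact SpernerLO.lo_sum T v hv c

end Vale.Agent.P160
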