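import Vale.Agent.P160.Defs

/-!
# P160: one step of the exposure argument
-/

namespace Vale.Agent.P160

open Finset

namespace Step

variable {ι : Type*} [DecidableEq ι]

theorem glue_glue (F : Finset ι) (s : ι → Bool) (x y : F → Bool) :
    glue F (glue F s x) y = glue F s y := by
  funext e
  unfold glue
  split_ifs <;> rfl

theorem glue_self (F : Finset ι) (s : ι → Bool) : glue F s (fun e => s e) = s := by
  funext e
  unfold glue
  split_ifs <;> rfl

theorem glue_of_notMem (F : Finset ι) (s : ι → Bool) (x : F → Bool) {e : ι} (he : e ∉ F) :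
    glue F s x e = s e := by
  unfold glue
  rw [dif_neg he]

end Step

open Classical in
/-- [STEP] -/
theorem step {ι : Type*} [Fintype ι] (F : Finset ι) (X : Finset (ι → Bool))
    (hX : ∀ s ∈ X, ∀ t : ι → Bool, (∀ e, e ∉ F → t e = s e) → t ∈ X)
    (P : (ι → Bool) → Prop) (c : ℕ) (hc : ∀ s, #{x : F → Bool | P (glue F s x)} ≤ c) :
    #{s ∈ X | P s} * 2 ^ #F ≤ c * #X := by
  have h1 : #({s ∈ X | P s} ×ˢ (univ : Finset (F → Bool))) = #{s ∈ X | P s} * 2 ^ #F := by
    rw [card_product]
    congr 1
    simp [Finset.card_univ]
  rw [← h1]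
  refine Finset.card_le_mul_card_image_of_maps_to
    (f := fun p : (ι → Bool) × (F → Bool) => glue F p.1 p.2) ?_ c ?_
  · rintro ⟨s, y⟩ hp
    rw [mem_product, mem_filter] at hp
    exact hX s hp.1.1 _ fun e he => Step.glue_of_notMem F s y he
  · intro t ht
    refine le_trans ?_ (hc t)
    refine Finset.card_le_card_of_injOn
      (fun p : (ι → Bool) × (F → Bool) => fun e : F => p.1 e) ?_ ?_
    · rintro ⟨s, y⟩ hp
      simp only [coe_filter, mem_product, mem_filter, mem_univ, and_true, Set.mem_ofPred_eq] at hp
      simp only [coe_filter, mem_univ, true_and, Set.mem_ofPred_eq]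
      rw [← hp.2, Step.glue_glue, Step.glue_self]
      exact hp.1.2
    · rintro ⟨s, y⟩ hp ⟨s', y'⟩ hp' h
      simp only [coe_filter, mem_product, mem_filter, mem_univ, and_true, Set.mem_ofPred_eq]
        at hp hp'
      have e1 : s = s' := by
        have h2 : glue F t (fun e : F => s e) = glue F t (fun e : F => s' e) := by
          exact congrArg (glue F t) h
        rw [← hp.2, Step.glue_glue, Step.glue_self, hp.2, ← hp'.2, Step.glue_glue,
          Step.glue_self] at h2
        exact h2
      subst e1
      have e2 : y = y' := by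
        funext e
        have h3 := congrFun (hp.2.trans hp'.2.symm) e
        unfold glue at h3
        rw [dif_pos e.2, dif_pos e.2] at h3
        exact h3
      rw [e2]

end Vale.Agent.P160
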