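import Vale.Agent.P160.Defs2
import Vale.Agent.P160.LO
import Vale.Agent.P160.Step

/-!
# P160: the rows are exposed one after the other
-/

namespace Vale.Agent.P160

open Finset

namespace Ch

variable {n : ℕ}

/-- the entries of the rows in `R` and the columns in `S` -/
def K (S R : Finset (Fin n)) : Finset (Sym2 (Fin n)) := (R ×ˢ S).image (fun p => s(p.1, p.2))

/-- only the entries in `K` are kept -/
def mask (S R : Finset (Fin n)) (s : Sym2 (Fin n) → Bool) : Sym2 (Fin n) → Bool :=
  fun e => if e ∈ K S R then s e else false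

open Classical in
/-- some vector of `W` with support `S` which is orthogonal to the rows in `R` -/
noncomputable def w (W : Submodule ℝ (Fin n → ℝ)) (S R : Finset (Fin n)) (t : Sym2 (Fin n) → Bool) : Fin n → ℝ :=
  if h : ∃ v ∈ W, (∀ j, v j ≠ 0 ↔ j ∈ S) ∧ ∀ i ∈ R, (mat t).mulVec v i = 0 then h.choose
  else fun j => if j ∈ S then 1 else 0

theorem w_supp (W : Submodule ℝ (Fin n → ℝ)) (S R : Finset (Fin n)) (t : Sym2 (Fin n) → Bool) (j : Fin n) :
    w W S R t j ≠ 0 ↔ j ∈ S := by
  unfold w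
  split_ifs with h
  · exact h.choose_spec.2.1 j
  · simp

/-- the vector determined by the rows in `R` -/
noncomputable def V (W : Submodule ℝ (Fin n → ℝ)) (S R : Finset (Fin n))
    (s : Sym2 (Fin n) → Bool) : Fin n → ℝ :=
  w W S R (mask S R s)

theorem V_supp (W : Submodule ℝ (Fin n → ℝ)) (S R : Finset (Fin n))
    (s : Sym2 (Fin n) → Bool) (j : Fin n) :
    V W S R s j ≠ 0 ↔ j ∈ S := w_supp W S R _ j

/-- row `m` is orthogonal to this vector -/
def P (W : Submodule ℝ (Fin n → ℝ)) (S R : Finset (Fin n)) (m : Fin n)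
    (s : Sym2 (Fin n) → Bool) : Prop :=
  (mat s).mulVec (V W S R s) m = 0

theorem mulVec_congr {S : Finset (Fin n)} {s t : Sym2 (Fin n) → Bool} {u : Fin n → ℝ}
    (hu : ∀ j, j ∉ S → u j = 0) {i : Fin n} (h : ∀ j ∈ S, t s(i, j) = s s(i, j)) :
    (mat t).mulVec u i = (mat s).mulVec u i := by
  unfold Matrix.mulVec dotProduct mat
  apply Finset.sum_congr rfl
  intro j _
  by_cases hj : j ∈ S
  · simp [h j hj]
  · simp [hu j hj]

theorem mulVec_mask {S R : Finset (Fin n)} {s : Sym2 (Fin n) → Bool} {u : Fin n → ℝ}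
    (hu : ∀ j, j ∉ S → u j = 0) {i : Fin n} (hi : i ∈ R) :
    (mat (mask S R s)).mulVec u i = (mat s).mulVec u i := by
  apply mulVec_congr hu
  intro j hj
  have : s(i, j) ∈ K S R := Finset.mem_image.2 ⟨(i, j), Finset.mem_product.2 ⟨hi, hj⟩, rfl⟩
  simp [mask, this]

theorem zero_of_supp {S : Finset (Fin n)} {u : Fin n → ℝ} (h : ∀ j, u j ≠ 0 ↔ j ∈ S) :
    ∀ j, j ∉ S → u j = 0 := by
  intro j hj
  by_contra hne
  exact hj ((h j).1 hne)

theorem det_imp {W : Submodule ℝ (Fin n → ℝ)} {S R : Finset (Fin n)}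
    {s : Sym2 (Fin n) → Bool} (h : DetW W S R s) (m : Fin n) : P W S R m s := by
  obtain ⟨v, hvW, hv, hAv, huniq⟩ := h
  have hex : ∃ v ∈ W, (∀ j, v j ≠ 0 ↔ j ∈ S) ∧
      ∀ i ∈ R, (mat (mask S R s)).mulVec v i = 0 := by
    refine ⟨v, hvW, hv, fun i hi => ?_⟩
    rw [mulVec_mask (zero_of_supp hv) hi, hAv]
    rfl
  have hV : V W S R s = hex.choose := by
    unfold V w
    rw [dif_pos hex]
  obtain ⟨c, hc⟩ := huniq (V W S R s) (by rw [hV]; exact hex.choose_spec.1)
    (zero_of_supp (V_supp W S R s)) (by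
    intro i hi
    rw [← mulVec_mask (zero_of_supp (V_supp W S R s)) hi, hV]
    exact hex.choose_spec.2.2 i hi)
  unfold P
  rw [hc, Matrix.mulVec_smul, hAv]
  simp

/-- the columns whose entries in row `m` are exposed when row `m` is processed -/
def T (S R : Finset (Fin n)) (m : Fin n) : Finset (Fin n) :=
  if m ∈ S then {j ∈ S \ R | m ≤ j} else S

/-- the entries exposed when row `m` is processed -/
def F (S R : Finset (Fin n)) (m : Fin n) : Finset (Sym2 (Fin n)) :=
  (T S R m).image (fun j => s(m, j))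

theorem T_sub (S R : Finset (Fin n)) (m : Fin n) : T S R m ⊆ S := by
  unfold T
  split_ifs
  · intro j hj
    exact (Finset.mem_sdiff.1 (Finset.mem_filter.1 hj).1).1
  · exact Finset.Subset.refl _

theorem card_T (S R : Finset (Fin n)) (m : Fin n) : #(T S R m) = fresh S R m := by
  unfold T fresh
  split_ifs <;> rfl

theorem card_F (S R : Finset (Fin n)) (m : Fin n) : #(F S R m) = fresh S R m := by
  rw [← card_T]
  apply Finset.card_image_of_injective
  intro a b hab
  exact Sym2.congr_right.1 hab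

theorem mem_F {S R : Finset (Fin n)} {m j : Fin n} : s(m, j) ∈ F S R m ↔ j ∈ T S R m := by
  constructor
  · intro h
    obtain ⟨a, ha, hab⟩ := Finset.mem_image.1 h
    rwa [← Sym2.congr_right.1 hab]
  · intro h
    exact Finset.mem_image.2 ⟨j, h, rfl⟩

theorem exists_of_mem_F {S R : Finset (Fin n)} {m : Fin n} {e : Sym2 (Fin n)}
    (he : e ∈ F S R m) : ∃ j ∈ T S R m, s(m, j) = e := Finset.mem_image.1 he

theorem F_K {S R : Finset (Fin n)} {m : Fin n} (hm : m ∉ R) {e : Sym2 (Fin n)}
    (he : e ∈ F S R m) : e ∉ K S R := by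
  intro hK
  obtain ⟨j, hj, rfl⟩ := Finset.mem_image.1 he
  obtain ⟨⟨r, j'⟩, hrj, hr⟩ := Finset.mem_image.1 hK
  obtain ⟨hr1, hj1⟩ := Finset.mem_product.1 hrj
  rw [Sym2.eq_iff] at hr
  rcases hr with ⟨h1, h2⟩ | ⟨h1, h2⟩
  · exact hm (h1 ▸ hr1)
  · have hmS : m ∈ S := h2 ▸ hj1
    unfold T at hj
    rw [if_pos hmS] at hj
    exact (Finset.mem_sdiff.1 (Finset.mem_filter.1 hj).1).2 (h1 ▸ hr1)

theorem F_row {S R : Finset (Fin n)} {m m' : Fin n} (hlt : m' < m) {j' : Fin n}
    (hj' : j' ∈ S) : s(m', j') ∉ F S R m := by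
  intro he
  obtain ⟨j, hj, hjj⟩ := Finset.mem_image.1 he
  rw [Sym2.eq_iff] at hjj
  rcases hjj with ⟨h1, h2⟩ | ⟨h1, h2⟩
  · exact absurd h1 (ne_of_gt hlt)
  · have hmS : m ∈ S := h1 ▸ hj'
    unfold T at hj
    rw [if_pos hmS] at hj
    have := (Finset.mem_filter.1 hj).2
    rw [h2] at this
    exact absurd hlt (not_lt.2 this)

theorem mask_congr {W : Submodule ℝ (Fin n → ℝ)} {S R : Finset (Fin n)} {m : Fin n} (hm : m ∉ R) {s t : Sym2 (Fin n) → Bool}
    (h : ∀ e, e ∉ F S R m → t e = s e) : V W S R t = V W S R s := by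
  unfold V
  congr 1
  funext e
  unfold mask
  split_ifs with he
  · exact h e fun hF => F_K hm hF he
  · rfl

theorem P_congr {W : Submodule ℝ (Fin n → ℝ)} {S R : Finset (Fin n)} {m i : Fin n} (hm : m ∉ R) (hlt : i < m)
    {s t : Sym2 (Fin n) → Bool} (h : ∀ e, e ∉ F S R m → t e = s e) (hs : P W S R i s) :
    P W S R i t := by
  unfold P at hs ⊢
  rw [mask_congr hm h]
  rw [mulVec_congr (S := S) (s := s) (t := t) (zero_of_supp (V_supp W S R s))]
  · exact hs
  · intro j hj
    exact h _ (F_row hlt hj)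

theorem fibre {W : Submodule ℝ (Fin n → ℝ)} {S R : Finset (Fin n)} {m : Fin n} (hm : m ∉ R)
    (s : Sym2 (Fin n) → Bool) (i1 : DecidableEq (Sym2 (Fin n))) (i2 : Fintype (F S R m → Bool))
    (i3 : DecidablePred fun x : F S R m → Bool => P W S R m (glue (F S R m) s x)) :
    #{x : F S R m → Bool | P W S R m (glue (F S R m) s x)} ≤
      (fresh S R m).choose (fresh S R m / 2) := by
  set u := V W S R s with hu
  set c := - ∑ j ∈ (T S R m)ᶜ, sg (s s(m, j)) * u j with hc
  have hLO := lo (T S R m) u (fun j hj => (w_supp W S R _ j).2 (T_sub S R m hj)) c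
  rw [card_T] at hLO
  refine le_trans ?_ hLO
  apply Finset.card_le_card_of_injOn
    (fun (x : F S R m → Bool) (j : T S R m) => x ⟨s(m, j.1), mem_F.2 j.2⟩)
  · intro x hx
    simp only [Finset.coe_filter, Finset.mem_univ, true_and, Set.mem_ofPred_eq] at hx ⊢
    unfold P at hx
    have hV : V W S R (glue (F S R m) s x) = u := by
      apply mask_congr hm
      intro e he
      simp [glue, he]
    rw [hV] at hx
    unfold Matrix.mulVec dotProduct mat at hx
    rw [← Finset.sum_add_sum_compl (T S R m)] at hx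
    have h1 : ∑ j ∈ (T S R m)ᶜ, (Matrix.of fun i j => sg (glue (F S R m) s x s(i, j))) m j * u j
        = ∑ j ∈ (T S R m)ᶜ, sg (s s(m, j)) * u j := by
      apply Finset.sum_congr rfl
      intro j hj
      have : s(m, j) ∉ F S R m := fun h => (Finset.mem_compl.1 hj) (mem_F.1 h)
      simp [glue, this]
    rw [h1] at hx
    rw [hc, ← Finset.sum_coe_sort (T S R m)] at *
    have h2 : ∑ j : T S R m, sg (x ⟨s(m, j.1), mem_F.2 j.2⟩) * u j =
        ∑ j : T S R m, (Matrix.of fun i j => sg (glue (F S R m) s x s(i, j))) m j * u j := by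
      apply Finset.sum_congr rfl
      intro j _
      have : s(m, j.1) ∈ F S R m := mem_F.2 j.2
      simp [glue, this]
    rw [h2]
    linarith
  · intro x _ y _ hxy
    funext ⟨e, he⟩
    obtain ⟨j, hj, hje⟩ := exists_of_mem_F he
    subst hje
    exact congrFun hxy ⟨j, hj⟩

open Classical in
/-- the rows before `m` are orthogonal to the vector -/
noncomputable def X (W : Submodule ℝ (Fin n → ℝ)) (S R : Finset (Fin n)) (m : ℕ) :
    Finset (Sym2 (Fin n) → Bool) :=
  {s | ∀ i : Fin n, i ∉ R → i.val < m → P W S R i s}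

theorem X_step {W : Submodule ℝ (Fin n → ℝ)} {S R : Finset (Fin n)} {m : Fin n} (hm : m ∉ R) :
    (#(X W S R (m.val + 1)) : ℝ) ≤ #(X W S R m.val) * rho (fresh S R m) := by
  classical
  have h := step (F S R m) (X W S R m.val) (by
    intro s hs t ht
    simp only [X, Finset.mem_filter, Finset.mem_univ, true_and] at hs ⊢
    intro i hi hlt
    exact P_congr hm hlt ht (hs i hi hlt)) (P W S R m)
    ((fresh S R m).choose (fresh S R m / 2)) (by
      intro s
      exact fibre hm s _ _ _)
  have h1 : X W S R (m.val + 1) = {s ∈ X W S R m.val | P W S R m s} := by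
    ext s
    simp only [X, Finset.mem_filter, Finset.mem_univ, true_and]
    constructor
    · intro hs
      exact ⟨fun i hi hlt => hs i hi (Nat.lt_succ_of_lt hlt), hs m hm (Nat.lt_succ_self _)⟩
    · rintro ⟨hs, hs2⟩ i hi hlt
      rcases Nat.lt_succ_iff_lt_or_eq.1 hlt with h2 | h2
      · exact hs i hi h2
      · rwa [Fin.ext h2]
  rw [card_F] at h
  rw [h1]
  unfold rho
  rw [mul_div_assoc', le_div_iff₀ (by positivity)]
  have h3 : ((#{s ∈ X W S R m.val | P W S R m s} * 2 ^ fresh S R m : ℕ) : ℝ) ≤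
      (((fresh S R m).choose (fresh S R m / 2) * #(X W S R m.val) : ℕ) : ℝ) := by
    exact_mod_cast h
  push_cast at h3
  linarith

theorem X_bound (W : Submodule ℝ (Fin n → ℝ)) (S R : Finset (Fin n)) : ∀ m : ℕ, m ≤ n →
    (#(X W S R m) : ℝ) ≤ 2 ^ Fintype.card (Sym2 (Fin n)) *
      ∏ i ∈ Rᶜ with i.val < m, rho (fresh S R i) := by
  intro m
  induction m with
  | zero =>
    intro _
    have h0 : (#(X W S R 0) : ℝ) ≤ 2 ^ Fintype.card (Sym2 (Fin n)) := by
      have := Finset.card_le_univ (X W S R 0)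
      rw [Fintype.card_fun, Fintype.card_bool] at this
      exact_mod_cast this
    simpa using h0
  | succ m ih =>
    intro hmn
    have ih' := ih (by omega)
    let i0 : Fin n := ⟨m, hmn⟩
    by_cases hR : i0 ∈ R
    · have h1 : X W S R (m + 1) = X W S R m := by
        ext s
        simp only [X, Finset.mem_filter, Finset.mem_univ, true_and]
        constructor
        · intro hs i hi hlt
          exact hs i hi (Nat.lt_succ_of_lt hlt)
        · intro hs i hi hlt
          rcases Nat.lt_succ_iff_lt_or_eq.1 hlt with h2 | h2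
          · exact hs i hi h2
          · exact absurd (show i ∈ R by rwa [show i = i0 from Fin.ext h2]) hi
      have h2 : ({i ∈ Rᶜ | i.val < m + 1} : Finset (Fin n)) = {i ∈ Rᶜ | i.val < m} := by
        ext i
        simp only [Finset.mem_filter, Finset.mem_compl]
        constructor
        · rintro ⟨hi, hlt⟩
          rcases Nat.lt_succ_iff_lt_or_eq.1 hlt with h3 | h3
          · exact ⟨hi, h3⟩
          · exact absurd (show i ∈ R by rwa [show i = i0 from Fin.ext h3]) hi
        · rintro ⟨hi, hlt⟩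
          exact ⟨hi, Nat.lt_succ_of_lt hlt⟩
      rw [h1, h2]
      exact ih'
    · have h1 := X_step (W := W) (S := S) hR
      have h2 : ({i ∈ Rᶜ | i.val < m + 1} : Finset (Fin n)) =
          insert i0 ({i ∈ Rᶜ | i.val < m} : Finset (Fin n)) := by
        ext i
        simp only [Finset.mem_filter, Finset.mem_compl, Finset.mem_insert]
        constructor
        · rintro ⟨hi, hlt⟩
          rcases Nat.lt_succ_iff_lt_or_eq.1 hlt with h3 | h3
          · exact Or.inr ⟨hi, h3⟩
          · exact Or.inl (Fin.ext h3)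
        · rintro (rfl | ⟨hi, hlt⟩)
          · exact ⟨hR, Nat.lt_succ_self _⟩
          · exact ⟨hi, Nat.lt_succ_of_lt hlt⟩
      have h3 : i0 ∉ ({i ∈ Rᶜ | i.val < m} : Finset (Fin n)) := by
        simp [i0]
      rw [h2, Finset.prod_insert h3]
      have h4 : 0 ≤ rho (fresh S R i0) := by
        unfold rho; positivity
      calc (#(X W S R (m + 1)) : ℝ) ≤ #(X W S R m) * rho (fresh S R i0) := h1
        _ ≤ (2 ^ Fintype.card (Sym2 (Fin n)) *
              ∏ i ∈ Rᶜ with i.val < m, rho (fresh S R i)) * rho (fresh S R i0) :=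
            mul_le_mul_of_nonneg_right ih' h4
        _ = _ := by ring

end Ch

open Classical in
theorem chainW {n : ℕ} (W : Submodule ℝ (Fin n → ℝ)) (S R : Finset (Fin n)) :
    (#{s | DetW W S R s} : ℝ) ≤
      2 ^ Fintype.card (Sym2 (Fin n)) * ∏ m ∈ Rᶜ, rho (fresh S R m) := by
  have h := Ch.X_bound W S R n le_rfl
  have h1 : ({i ∈ Rᶜ | i.val < n} : Finset (Fin n)) = Rᶜ :=
    Finset.filter_true_of_mem fun i _ => i.2
  rw [h1] at h
  refine le_trans ?_ h
  have h2 : ({s | DetW W S R s} : Finset (Sym2 (Fin n) → Bool)) ⊆ Ch.X W S R n := by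
    intro s hs
    simp only [Ch.X, Finset.mem_filter, Finset.mem_univ, true_and] at hs ⊢
    intro i _ _
    exact Ch.det_imp hs i
  exact_mod_cast Finset.card_le_card h2

open Classical in
theorem chain {n : ℕ} (S R : Finset (Fin n)) :
    (#{s | Det S R s} : ℝ) ≤
      2 ^ Fintype.card (Sym2 (Fin n)) * ∏ m ∈ Rᶜ, rho (fresh S R m) := by
  refine le_trans ?_ (chainW ⊤ S R)
  have h2 : ({s | Det S R s} : Finset (Sym2 (Fin n) → Bool)) ⊆
      ({s | DetW ⊤ S R s} : Finset (Sym2 (Fin n) → Bool)) := by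
    intro s hs
    simp only [Finset.mem_filter, Finset.mem_univ, true_and] at hs ⊢
    obtain ⟨v, h1, h2, h3⟩ := hs
    exact ⟨v, trivial, h1, h2, fun w _ hw1 hw2 => h3 w hw1 hw2⟩
  exact_mod_cast Finset.card_le_card h2

end Vale.Agent.P160
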