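import Vale.Agent.P160.Par1

/-!
P160, row COV: the sharp upper bound for the structured part.
-/

namespace Vale.Agent.P160

open Finset

namespace Cov

theorem sg_mul_self (b : Bool) : sg b * sg b = 1 := by
  cases b <;> norm_num [sg]

theorem sg_beq (a c : Bool) : sg (a == c) = sg a * sg c := by
  cases a <;> cases c <;> norm_num [sg]

/-- a kernel vector whose support has two elements -/
theorem dep_of_two {n : ℕ} {s : Sym2 (Fin n) → Bool} {v : Fin n → ℝ}
    (hA : (mat s).mulVec v = 0) (i j : Fin n) (hij : i < j)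
    (hv : ∀ l, v l ≠ 0 ↔ l = i ∨ l = j) : s ∈ Dep n := by
  have hj : v j ≠ 0 := (hv j).2 (Or.inr rfl)
  have hrow : ∀ l, sg (s s(l, i)) * v i + sg (s s(l, j)) * v j = 0 := by
    intro l
    have h1 := congrFun hA l
    have h2 : (mat s).mulVec v l = ∑ x, sg (s s(l, x)) * v x := rfl
    rw [h2, ← Finset.sum_subset (Finset.subset_univ {i, j}), Finset.sum_pair hij.ne] at h1
    · exact h1
    · intro x _ hx
      rw [mem_insert, mem_singleton] at hx
      have : v x = 0 := by
        by_contra h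
        exact hx ((hv x).1 h)
      rw [this, mul_zero]
  refine ⟨i, j, hij, (s s(i, i) == s s(i, j)), fun l => ?_⟩
  have h1 := hrow i
  have h2 := hrow l
  have ha := sg_mul_self (s s(i, i))
  have hc := sg_mul_self (s s(i, j))
  show sg (s s(l, i)) = _ * sg (s s(l, j))
  rw [sg_beq]
  have h3 : v i = -(sg (s s(i, i)) * sg (s s(i, j)) * v j) := by
    have : sg (s s(i, i)) * (sg (s s(i, i)) * v i + sg (s s(i, j)) * v j) = 0 := by
      rw [h1, mul_zero]
    have h4 : sg (s s(i, i)) * sg (s s(i, i)) * v i + sg (s s(i, i)) * sg (s s(i, j)) * v j = 0 := by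
      linarith
    rw [ha] at h4
    linarith
  have h5 : (sg (s s(l, j)) - sg (s s(l, i)) * (sg (s s(i, i)) * sg (s s(i, j)))) * v j = 0 := by
    rw [h3] at h2
    linarith
  have h6 : sg (s s(l, j)) = sg (s s(l, i)) * (sg (s s(i, i)) * sg (s s(i, j))) := by
    have := (mul_eq_zero.1 h5).resolve_right hj
    linarith
  rw [h6]
  have h7 : sg (s s(i, i)) * sg (s s(i, j)) * (sg (s s(l, i)) * (sg (s s(i, i)) * sg (s s(i, j)))) =
      sg (s s(l, i)) * (sg (s s(i, i)) * sg (s s(i, i))) * (sg (s s(i, j)) * sg (s s(i, j))) := by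
    ring
  rw [h7, ha, hc, mul_one, mul_one]

theorem dep_of_det {n : ℕ} {S R : Finset (Fin n)} {s : Sym2 (Fin n) → Bool} (h : #S = 2)
    (hd : Det S R s) : s ∈ Dep n := by
  classical
  obtain ⟨v, hv, hA, -⟩ := hd
  obtain ⟨i, j, hij, hS⟩ := card_eq_two.1 h
  have hv' : ∀ l, v l ≠ 0 ↔ l = i ∨ l = j := by
    intro l
    rw [hv l, hS, mem_insert, mem_singleton]
  rcases lt_or_gt_of_ne hij with h | h
  · exact dep_of_two hA i j h hv'
  · exact dep_of_two hA j i h fun l => (hv' l).trans or_comm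

/-- the two events of a pair, indexed by the ordered pairs -/
def Ev {n : ℕ} (p : Fin n × Fin n) : Set (Sym2 (Fin n) → Bool) :=
  if p.1 < p.2 then Par p.1 p.2 true else Par p.2 p.1 false

theorem pr_ev {n : ℕ} {p : Fin n × Fin n} (hp : p.1 ≠ p.2) : pr n (Ev p) = (1 / 2) ^ n := by
  unfold Ev
  split_ifs
  · exact pr_par hp _
  · exact pr_par hp.symm _

theorem dep_ev {n : ℕ} {s : Sym2 (Fin n) → Bool} (hs : s ∈ Dep n) :
    ∃ p : Fin n × Fin n, p.1 ≠ p.2 ∧ s ∈ Ev p := by
  obtain ⟨i, j, hij, b, hb⟩ := hs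
  cases b with
  | true =>
    refine ⟨(i, j), hij.ne, ?_⟩
    unfold Ev
    rw [if_pos hij]
    exact hb
  | false =>
    refine ⟨(j, i), hij.ne', ?_⟩
    unfold Ev
    rw [if_neg (not_lt.2 hij.le)]
    exact hb

open Classical in
theorem card_pr {n : ℕ} (E : Set (Sym2 (Fin n) → Bool)) :
    ((univ.filter fun s : Sym2 (Fin n) → Bool => s ∈ E).card : ℝ) =
      2 ^ Fintype.card (Sym2 (Fin n)) * pr n E := by
  have hcard : (Nat.card E : ℝ) = ((univ.filter fun s : Sym2 (Fin n) → Bool => s ∈ E).card : ℝ) := by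
    rw [Nat.card_eq_fintype_card, Fintype.card_subtype]
  rw [pr, ← hcard]
  field_simp

open Classical in
theorem card_dep (n : ℕ) :
    ((univ.filter fun s : Sym2 (Fin n) → Bool => s ∈ Dep n).card : ℝ) ≤
      2 ^ Fintype.card (Sym2 (Fin n)) * ((n : ℝ) * (n - 1) * (1 / 2) ^ n) := by
  have h1 : (univ.filter fun s : Sym2 (Fin n) → Bool => s ∈ Dep n) ⊆
      (univ : Finset (Fin n)).offDiag.biUnion fun p => univ.filter fun s => s ∈ Ev p := by
    intro s hs
    rw [mem_filter] at hs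
    obtain ⟨p, hp, hs⟩ := dep_ev hs.2
    rw [mem_biUnion]
    exact ⟨p, mem_offDiag.2 ⟨mem_univ _, mem_univ _, hp⟩, mem_filter.2 ⟨mem_univ _, hs⟩⟩
  have h2 : (univ.filter fun s : Sym2 (Fin n) → Bool => s ∈ Dep n).card ≤
      ∑ p ∈ (univ : Finset (Fin n)).offDiag,
        (univ.filter fun s : Sym2 (Fin n) → Bool => s ∈ Ev p).card :=
    (card_le_card h1).trans card_biUnion_le
  have h3 : ((univ.filter fun s : Sym2 (Fin n) → Bool => s ∈ Dep n).card : ℝ) ≤
      ∑ p ∈ (univ : Finset (Fin n)).offDiag,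
        ((univ.filter fun s : Sym2 (Fin n) → Bool => s ∈ Ev p).card : ℝ) := by
    exact_mod_cast h2
  refine h3.trans (le_of_eq ?_)
  have h4 : ∀ p ∈ (univ : Finset (Fin n)).offDiag,
      ((univ.filter fun s : Sym2 (Fin n) → Bool => s ∈ Ev p).card : ℝ) =
        2 ^ Fintype.card (Sym2 (Fin n)) * (1 / 2) ^ n := by
    intro p hp
    rw [mem_offDiag] at hp
    rw [card_pr, pr_ev hp.2.2]
  rw [sum_congr rfl h4, sum_const, offDiag_card, card_univ, Fintype.card_fin, nsmul_eq_mul]
  have h5 : ((n * n - n : ℕ) : ℝ) = n * (n - 1) := by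
    rw [Nat.cast_sub (Nat.le_mul_self n)]
    push_cast
    ring
  rw [h5]
  ring

open Classical in
theorem cover (n K : ℕ) :
    (univ.filter fun s : Sym2 (Fin n) → Bool => s ∈ Sparse n K) ⊆
      (univ.filter fun s => s ∈ Dep n) ∪
      (Icc 3 K).biUnion fun k => (powersetCard k (univ : Finset (Fin n))).biUnion fun S =>
        (powersetCard (k - 1) (univ : Finset (Fin n))).biUnion fun R =>
          univ.filter fun s => Det S R s := by
  intro s hs
  rw [mem_filter] at hs
  obtain ⟨S, R, h1, h2, h3, h4⟩ := exists_det hs.2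
  rw [mem_union]
  by_cases h5 : #S = 2
  · left
    rw [mem_filter]
    exact ⟨mem_univ _, dep_of_det h5 h4⟩
  · right
    simp only [mem_biUnion, mem_Icc, mem_powersetCard, mem_filter, subset_univ, true_and,
      mem_univ]
    exact ⟨#S, ⟨by omega, h2⟩, S, rfl, R, by omega, h4⟩

open Classical in
theorem card_le (n K : ℕ) :
    ((univ.filter fun s : Sym2 (Fin n) → Bool => s ∈ Sparse n K).card : ℝ) ≤
      ((univ.filter fun s : Sym2 (Fin n) → Bool => s ∈ Dep n).card : ℝ) +
      ∑ k ∈ Icc 3 K, ∑ S ∈ powersetCard k (univ : Finset (Fin n)),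
        ∑ R ∈ powersetCard (k - 1) (univ : Finset (Fin n)),
          ((univ.filter fun s : Sym2 (Fin n) → Bool => Det S R s).card : ℝ) := by
  have h : (univ.filter fun s : Sym2 (Fin n) → Bool => s ∈ Sparse n K).card ≤
      (univ.filter fun s : Sym2 (Fin n) → Bool => s ∈ Dep n).card +
      ∑ k ∈ Icc 3 K, ∑ S ∈ powersetCard k (univ : Finset (Fin n)),
        ∑ R ∈ powersetCard (k - 1) (univ : Finset (Fin n)),
          (univ.filter fun s : Sym2 (Fin n) → Bool => Det S R s).card := by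
    refine (card_le_card (cover n K)).trans ((card_union_le _ _).trans (Nat.add_le_add_left ?_ _))
    refine card_biUnion_le.trans (sum_le_sum fun k _ => ?_)
    refine card_biUnion_le.trans (sum_le_sum fun S _ => ?_)
    exact card_biUnion_le
  exact_mod_cast h

/-- the hypothesis of `Upper.term` for `k ≥ 3` -/
theorem num : ∃ n0 : ℕ, ∀ n ≥ n0, ∀ k a b : ℕ, 3 ≤ k → (k : ℝ) ≤ n - 2 * n / Real.log n →
    a + b + k = n + 1 → b ≤ k →
      (n.choose k : ℝ) * (n.choose (k - 1)) * (rho k ^ a * ∏ i ∈ range b, rho (i + 1))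
        ≤ (1 / 2) ^ n := by
  obtain ⟨n1, h1⟩ := asym (ε := 1 / 4) (by norm_num)
  obtain ⟨n2, h2⟩ := asym_log
  refine ⟨max (max n1 n2) 2, fun n hn k a b hk hkg hab hbk => ?_⟩
  have hn1 : n1 ≤ n := (le_max_left _ _).trans ((le_max_left _ _).trans hn)
  have hn2 : n2 ≤ n := (le_max_right _ _).trans ((le_max_left _ _).trans hn)
  have hn3 : 2 ≤ n := (le_max_right _ _).trans hn
  by_cases hkn : n + 1 ≤ 2 * k
  · refine h2 n hn2 k a b hkn (by linarith) ?_ hab hbk
    have : 0 ≤ 2 * (n : ℝ) / Real.log n :=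
      div_nonneg (by positivity) (Real.log_natCast_nonneg n)
    have h3 : (k : ℝ) ≤ n := by linarith
    exact_mod_cast h3
  · refine h1 n hn1 k a b hk ?_ hab hbk
    have h3 : 2 * k ≤ n := by omega
    have h4 : ((2 * k : ℕ) : ℝ) ≤ n := by exact_mod_cast h3
    push_cast at h4
    have : (0 : ℝ) ≤ n := Nat.cast_nonneg n
    linarith

end Cov

open Classical in
/-- [COV] Cov.lean -/
theorem sparse_sharp : ∃ n0 : ℕ, ∀ n ≥ n0, ∀ k : ℕ, (k : ℝ) ≤ n - 2 * n / Real.log n →
    pr n (Sparse n k) ≤ (n : ℝ) ^ 2 * (1 / 2) ^ n := by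
  obtain ⟨n0, H⟩ := Cov.num
  refine ⟨max n0 1, fun n hn K hK => ?_⟩
  have hn0 : n0 ≤ n := (le_max_left _ _).trans hn
  have hn1 : 1 ≤ n := (le_max_right _ _).trans hn
  have hn1' : (1 : ℝ) ≤ n := by exact_mod_cast hn1
  have hKn : K ≤ n := by
    have h0 : 0 ≤ 2 * (n : ℝ) / Real.log n :=
      div_nonneg (by positivity) (Real.log_natCast_nonneg n)
    have h3 : (K : ℝ) ≤ n := by linarith
    exact_mod_cast h3
  set h : ℝ := (1 / 2) ^ n with hh
  have hpos : 0 < h := by positivity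
  have hk : ∀ k ∈ Icc 3 K, (∑ S ∈ powersetCard k (univ : Finset (Fin n)),
        ∑ R ∈ powersetCard (k - 1) (univ : Finset (Fin n)),
          ((univ.filter fun s : Sym2 (Fin n) → Bool => Det S R s).card : ℝ)) ≤
      2 ^ Fintype.card (Sym2 (Fin n)) * h := by
    intro k hk
    rw [mem_Icc] at hk
    have h1 : (∑ S ∈ powersetCard k (univ : Finset (Fin n)),
        ∑ R ∈ powersetCard (k - 1) (univ : Finset (Fin n)),
          ((univ.filter fun s : Sym2 (Fin n) → Bool => Det S R s).card : ℝ)) ≤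
        2 ^ Fintype.card (Sym2 (Fin n)) * ∑ S ∈ powersetCard k (univ : Finset (Fin n)),
          ∑ R ∈ powersetCard (k - 1) (univ : Finset (Fin n)),
            ∏ m ∈ Rᶜ, rho (fresh S R m) := by
      rw [mul_sum]
      refine sum_le_sum fun S _ => ?_
      rw [mul_sum]
      exact sum_le_sum fun R _ => chain S R
    refine h1.trans (mul_le_mul_of_nonneg_left ?_ (by positivity))
    refine Upper.term (by omega) (fun a b hab hb => ?_) (by omega)
    refine H n hn0 k a b (by omega) (le_trans ?_ hK) hab hb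
    exact_mod_cast hk.2
  have h5 : ((#(Icc 3 K) : ℕ) : ℝ) ≤ n := by
    have : #(Icc 3 K) ≤ n := by
      rw [Nat.card_Icc]
      omega
    exact_mod_cast this
  have h6 : (2 : ℝ) ^ Fintype.card (Sym2 (Fin n)) * pr n (Sparse n K) ≤
      2 ^ Fintype.card (Sym2 (Fin n)) * ((n : ℝ) ^ 2 * h) := by
    rw [← Cov.card_pr]
    refine (Cov.card_le n K).trans ?_
    refine (add_le_add (Cov.card_dep n) (sum_le_sum hk)).trans ?_
    rw [sum_const, nsmul_eq_mul]
    have h7 : ((#(Icc 3 K) : ℕ) : ℝ) * (2 ^ Fintype.card (Sym2 (Fin n)) * h) ≤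
        n * (2 ^ Fintype.card (Sym2 (Fin n)) * h) :=
      mul_le_mul_of_nonneg_right h5 (by positivity)
    refine (add_le_add_right h7 _).trans (le_of_eq ?_)
    ring
  exact le_of_mul_le_mul_left h6 (by positivity)

end Vale.Agent.P160
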