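import Mathlib

/-!
# P160: symmetric random sign matrices, sparse kernel vectors: definitions
-/

namespace Vale.Agent.P160

open Finset

/-- The sign `1` or `-1`. -/
def sg (b : Bool) : ℝ := if b then 1 else -1

/-- The symmetric sign matrix whose entry at the unordered pair `e` of indices is `sg (s e)`. -/
def mat {n : ℕ} (s : Sym2 (Fin n) → Bool) : Matrix (Fin n) (Fin n) ℝ :=
  Matrix.of fun i j => sg (s s(i, j))

open Classical in
/-- The number of nonzero coordinates. -/
noncomputable def nnz {n : ℕ} (v : Fin n → ℝ) : ℕ := #{i | v i ≠ 0}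

/-- The uniform probability on the symmetric sign matrices of order `n`: the entries on and above
the diagonal are independent uniform signs. -/
noncomputable def pr (n : ℕ) (E : Set (Sym2 (Fin n) → Bool)) : ℝ :=
  (Nat.card E : ℝ) / 2 ^ Fintype.card (Sym2 (Fin n))

/-- The kernel of the matrix contains a nonzero vector with at most `k` nonzero coordinates. -/
def Sparse (n k : ℕ) : Set (Sym2 (Fin n) → Bool) :=
  {s | ∃ v : Fin n → ℝ, v ≠ 0 ∧ (mat s).mulVec v = 0 ∧ nnz v ≤ k}

/-- Central binomial probabilities. -/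
noncomputable def rho (m : ℕ) : ℝ := (m.choose (m / 2) : ℝ) / 2 ^ m

/-- The configuration `s` with the coordinates in `F` replaced by `x`. -/
def glue {ι : Type*} [DecidableEq ι] (F : Finset ι) (s : ι → Bool) (x : F → Bool) : ι → Bool :=
  fun e => if h : e ∈ F then x ⟨e, h⟩ else s e

/-- The rows in `R` determine the kernel vector, whose support is `S`. -/
def Det {n : ℕ} (S R : Finset (Fin n)) (s : Sym2 (Fin n) → Bool) : Prop :=
  ∃ v : Fin n → ℝ, (∀ j, v j ≠ 0 ↔ j ∈ S) ∧ (mat s).mulVec v = 0 ∧
    ∀ w : Fin n → ℝ, (∀ j, j ∉ S → w j = 0) → (∀ i ∈ R, (mat s).mulVec w i = 0) →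
      ∃ c : ℝ, w = c • v

/-- The number of entries of row `m` that are exposed when row `m` is processed. -/
def fresh {n : ℕ} (S R : Finset (Fin n)) (m : Fin n) : ℕ :=
  if m ∈ S then #{j ∈ S \ R | m ≤ j} else #S

end Vale.Agent.P160
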