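import Vale.Agent.P160.Defs

/-!
# P160: kernel vectors with few distinct coordinates: definitions
-/

namespace Vale.Agent.P160

open Finset

/-- Among the vectors in `W`, the rows in `R` determine the kernel vector, whose support is `S`. -/
def DetW {n : ℕ} (W : Submodule ℝ (Fin n → ℝ)) (S R : Finset (Fin n))
    (s : Sym2 (Fin n) → Bool) : Prop :=
  ∃ v ∈ W, (∀ j, v j ≠ 0 ↔ j ∈ S) ∧ (mat s).mulVec v = 0 ∧
    ∀ w ∈ W, (∀ j, j ∉ S → w j = 0) → (∀ i ∈ R, (mat s).mulVec w i = 0) →
      ∃ c : ℝ, w = c • v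

/-- The vectors that are constant on the fibres of `p`. -/
def Wpi {n L : ℕ} (p : Fin n → Fin L) : Submodule ℝ (Fin n → ℝ) where
  carrier := {w | ∀ i j, p i = p j → w i = w j}
  add_mem' := by
    intro a b ha hb i j h
    simp only [Pi.add_apply]
    rw [ha i j h, hb i j h]
  zero_mem' := by
    intro i j _
    rfl
  smul_mem' := by
    intro c a ha i j h
    simp only [Pi.smul_apply]
    rw [ha i j h]

open Classical in
/-- The kernel of the matrix contains a nonzero vector with at most `L` distinct coordinates. -/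
def Few (n L : ℕ) : Set (Sym2 (Fin n) → Bool) :=
  {s | ∃ v : Fin n → ℝ, v ≠ 0 ∧ (mat s).mulVec v = 0 ∧ #(Finset.univ.image v) ≤ L}

end Vale.Agent.P160
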