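import Vale.Agent.P160.Defs

/-!
P160 [PROD]: the product of the bounds over the rows outside `R`.
-/

namespace Vale.Agent.P160

open Finset

namespace Prod

theorem prod_min {α : Type*} [LinearOrder α] (f : ℕ → ℝ) (T : Finset α) :
    ∏ m ∈ T, f (#{j ∈ T | m ≤ j}) = ∏ i ∈ range (#T), f (i + 1) := by
  induction T using Finset.induction_on_min with
  | empty => simp
  | insert a s ha ih =>
    have hns : a ∉ s := fun h => lt_irrefl a (ha a h)
    rw [Finset.prod_insert hns, card_insert_of_notMem hns, Finset.prod_range_succ, ← ih, mul_comm]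
    have h1 : #{j ∈ insert a s | a ≤ j} = #s + 1 := by
      rw [Finset.filter_true_of_mem, card_insert_of_notMem hns]
      intro x hx
      rcases Finset.mem_insert.1 hx with h | h
      · exact h.ge
      · exact (ha x h).le
    have h2 : ∏ m ∈ s, f (#{j ∈ insert a s | m ≤ j}) = ∏ m ∈ s, f (#{j ∈ s | m ≤ j}) := by
      refine Finset.prod_congr rfl fun m hm => ?_
      rw [Finset.filter_insert, if_neg (not_le.2 (ha m hm))]
    rw [h1, h2]

end Prod

/-- [PROD] Prod.lean -/
theorem prod_fresh {n : ℕ} (S R : Finset (Fin n)) :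
    ∏ m ∈ Rᶜ, rho (fresh S R m) =
      rho (#S) ^ #(S ∪ R)ᶜ * ∏ i ∈ range (#(S \ R)), rho (i + 1) := by
  have hu : Rᶜ = (S ∪ R)ᶜ ∪ (S \ R) := by
    ext x
    simp only [mem_compl, mem_union, mem_sdiff]
    tauto
  have hd : Disjoint (S ∪ R)ᶜ (S \ R) := by
    rw [Finset.disjoint_left]
    intro x h1 h2
    simp only [mem_compl, mem_union, mem_sdiff] at h1 h2
    tauto
  rw [hu, Finset.prod_union hd, ← Prod.prod_min]
  congr 1
  · refine Finset.prod_eq_pow_card fun m hm => ?_
    simp only [mem_compl, mem_union, not_or] at hm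
    rw [fresh, if_neg hm.1]
  · refine Finset.prod_congr rfl fun m hm => ?_
    rw [fresh, if_pos (mem_sdiff.1 hm).1]

end Vale.Agent.P160
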