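import Mathlib

/-!
# P160, row LIM: roots of the bounds
-/

namespace Vale.Agent.P160

open Finset

theorem lim_root (f : ℕ → ℝ) (n0 : ℕ) (h1 : ∀ n ≥ n0, (1 / 2 : ℝ) ^ n ≤ f n)
    (h2 : ∀ n ≥ n0, f n ≤ (n : ℝ) ^ 3 * (1 / 2) ^ n) :
    Filter.Tendsto (fun n => f n ^ (1 / (n : ℝ))) Filter.atTop (nhds (1 / 2)) := by
  have hlim : Filter.Tendsto (fun n : ℕ => ((n : ℝ) ^ (1 / (n : ℝ))) ^ 3 * (1 / 2))
      Filter.atTop (nhds (1 ^ 3 * (1 / 2))) :=
    ((tendsto_rpow_div.comp tendsto_natCast_atTop_atTop).pow 3).mul_const _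
  rw [one_pow, one_mul] at hlim
  have hroot : ∀ n : ℕ, 1 ≤ n → ((1 / 2 : ℝ) ^ n) ^ (1 / (n : ℝ)) = 1 / 2 := by
    intro n hn
    rw [one_div (n : ℝ)]
    exact Real.pow_rpow_inv_natCast (by norm_num) (by omega)
  refine tendsto_of_tendsto_of_tendsto_of_le_of_le' tendsto_const_nhds hlim ?_ ?_
  · filter_upwards [Filter.eventually_ge_atTop (max n0 1)] with n hn
    have hn0 : n0 ≤ n := le_trans (le_max_left _ _) hn
    have hn1 : 1 ≤ n := le_trans (le_max_right _ _) hn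
    rw [← hroot n hn1]
    exact Real.rpow_le_rpow (by positivity) (h1 n hn0) (by positivity)
  · filter_upwards [Filter.eventually_ge_atTop (max n0 1)] with n hn
    have hn0 : n0 ≤ n := le_trans (le_max_left _ _) hn
    have hn1 : 1 ≤ n := le_trans (le_max_right _ _) hn
    have hf : 0 ≤ f n := le_trans (by positivity) (h1 n hn0)
    calc f n ^ (1 / (n : ℝ)) ≤ ((n : ℝ) ^ 3 * (1 / 2) ^ n) ^ (1 / (n : ℝ)) :=
          Real.rpow_le_rpow hf (h2 n hn0) (by positivity)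
      _ = ((n : ℝ) ^ 3) ^ (1 / (n : ℝ)) * ((1 / 2 : ℝ) ^ n) ^ (1 / (n : ℝ)) :=
          Real.mul_rpow (by positivity) (by positivity)
      _ = ((n : ℝ) ^ (1 / (n : ℝ))) ^ 3 * (1 / 2) := by
          rw [hroot n hn1, ← Real.rpow_natCast ((n : ℝ) ^ (1 / (n : ℝ))) 3, ← Real.rpow_mul
            (Nat.cast_nonneg n), mul_comm (1 / (n : ℝ)), Real.rpow_mul (Nat.cast_nonneg n),
            Real.rpow_natCast]

end Vale.Agent.P160
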