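import Vale.Agent.P160.Defs

/-!
# P160: the lower bound

Rows `0` and `1` of the matrix are equal with probability `2 ^ (-n)`; then the kernel contains
`e_0 - e_1`.
-/

namespace Vale.Agent.P160

open Finset

namespace Low

/-- The map which sends `1` to `0` and fixes the other indices. -/
def pr0 {n : ℕ} (i0 i1 : Fin n) (i : Fin n) : Fin n := if i = i1 then i0 else i

/-- The kernel vector `e_0 - e_1`. -/
noncomputable def vec {n : ℕ} (i0 i1 : Fin n) : Fin n → ℝ := Pi.single i0 1 - Pi.single i1 1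

theorem mem_sparse {n k : ℕ} (hk : 2 ≤ k) (i0 i1 : Fin n) (h01 : i0 ≠ i1)
    (s : Sym2 (Fin n) → Bool) : (s ∘ Sym2.map (pr0 i0 i1)) ∈ Sparse n k := by
  classical
  refine ⟨vec i0 i1, ?_, ?_, ?_⟩
  · intro h
    have := congrFun h i0
    simp [vec, h01] at this
  · ext i
    have : (mat (s ∘ Sym2.map (pr0 i0 i1))).mulVec (vec i0 i1) i
        = mat (s ∘ Sym2.map (pr0 i0 i1)) i i0 - mat (s ∘ Sym2.map (pr0 i0 i1)) i i1 := by
      rw [vec, Matrix.mulVec_sub]
      simp
    rw [this]
    have hp : pr0 i0 i1 i0 = i0 := by simp [pr0]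
    have hq : pr0 i0 i1 i1 = i0 := by simp [pr0]
    simp [mat, hp, hq]
  · refine le_trans ?_ hk
    unfold nnz
    refine le_trans (card_le_card (t := {i0, i1}) ?_) (card_le_two)
    intro i hi
    simp only [mem_filter, mem_univ, true_and] at hi
    by_contra hni
    simp only [mem_insert, mem_singleton, not_or] at hni
    apply hi
    simp [vec, hni.1, hni.2]

theorem inj {n : ℕ} (i0 i1 : Fin n) (s t : Sym2 (Fin n) → Bool)
    (h : s ∘ Sym2.map (pr0 i0 i1) = t ∘ Sym2.map (pr0 i0 i1))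
    (hd : ∀ j, s s(i1, j) = t s(i1, j)) : s = t := by
  funext e
  induction e using Sym2.ind with
  | _ x y =>
    by_cases hx : x = i1
    · rw [hx]; exact hd y
    by_cases hy : y = i1
    · rw [hy, Sym2.eq_swap]; exact hd x
    have := congrFun h s(x, y)
    simpa [pr0, hx, hy] using this

end Low

/-- [LOW] Low.lean -/
theorem low {n k : ℕ} (hn : 2 ≤ n) (hk : 2 ≤ k) : (1 / 2 : ℝ) ^ n ≤ pr n (Sparse n k) := by
  classical
  let i0 : Fin n := ⟨0, by omega⟩
  let i1 : Fin n := ⟨1, by omega⟩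
  have h01 : i0 ≠ i1 := by simp [i0, i1]
  let f : (Sym2 (Fin n) → Bool) → (Sparse n k) × (Fin n → Bool) := fun s =>
    (⟨s ∘ Sym2.map (Low.pr0 i0 i1), Low.mem_sparse hk i0 i1 h01 s⟩, fun j => s s(i1, j))
  have hf : Function.Injective f := by
    intro s t hst
    have h1 := congrArg (fun p => (p.1 : Sym2 (Fin n) → Bool)) hst
    have h2 := congrArg Prod.snd hst
    exact Low.inj i0 i1 s t h1 (fun j => congrFun h2 j)
  have hcard := Nat.card_le_card_of_injective f hf
  rw [Nat.card_prod, Nat.card_eq_fintype_card, Nat.card_eq_fintype_card (α := Fin n → Bool),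
    Fintype.card_fun, Fintype.card_fun, Fintype.card_bool, Fintype.card_fin] at hcard
  have hR : (2 : ℝ) ^ Fintype.card (Sym2 (Fin n)) ≤ (Nat.card (Sparse n k) : ℝ) * 2 ^ n := by
    exact_mod_cast hcard
  unfold pr
  rw [le_div_iff₀ (by positivity), one_div, inv_pow, inv_mul_le_iff₀ (by positivity)]
  linarith [hR, mul_comm (Nat.card (Sparse n k) : ℝ) (2 ^ n)]

end Vale.Agent.P160
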