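import Vale.Agent.P160.Upper
import Vale.Agent.P160.AsymLog

/-!
P160: the upper bound for kernel vectors with at least `2 n / log n` zero coordinates.
-/

namespace Vale.Agent.P160

open Finset

open Classical in
/-- the upper bound for any threshold `g n ≤ n` -/
theorem upper_gen (chain : ∀ {n : ℕ} (S R : Finset (Fin n)),
      (#{s | Det S R s} : ℝ) ≤
        2 ^ Fintype.card (Sym2 (Fin n)) * ∏ m ∈ Rᶜ, rho (fresh S R m))
    (g : ℕ → ℝ) (hg : ∀ n, g n ≤ n) (n0 : ℕ)
    (H : ∀ n ≥ n0, ∀ k a b : ℕ, 3 ≤ k → (k : ℝ) ≤ g n → a + b + k = n + 1 → b ≤ k →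
      (n.choose k : ℝ) * (n.choose (k - 1)) * (rho k ^ a * ∏ i ∈ range b, rho (i + 1))
        ≤ (1 / 2) ^ n) :
    ∃ n0 : ℕ, ∀ n ≥ n0, ∀ K : ℕ, (K : ℝ) ≤ g n →
      pr n (Sparse n K) ≤ ((n : ℝ) ^ 3 - 1) * (1 / 2) ^ n := by
  refine ⟨max n0 1, fun n hn K hK => ?_⟩
  have hn0 : n0 ≤ n := (le_max_left _ _).trans hn
  have hn1 : 1 ≤ n := (le_max_right _ _).trans hn
  have hn1' : (1 : ℝ) ≤ n := by exact_mod_cast hn1
  have hKn : K ≤ n := by
    exact_mod_cast hK.trans (hg n)
  set h : ℝ := (1 / 2) ^ n with hh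
  have hpos : 0 < h := by positivity
  have hcard : (Nat.card (Sparse n K) : ℝ) =
      ((univ.filter fun s : Sym2 (Fin n) → Bool => s ∈ Sparse n K).card : ℝ) := by
    rw [Nat.card_eq_fintype_card, Fintype.card_subtype]
  rw [pr, div_le_iff₀ (by positivity), hcard]
  refine (Upper.card_le n K).trans ?_
  have hk : ∀ k ∈ Icc 2 K, (∑ S ∈ powersetCard k (univ : Finset (Fin n)),
        ∑ R ∈ powersetCard (k - 1) (univ : Finset (Fin n)),
          ((univ.filter fun s : Sym2 (Fin n) → Bool => Det S R s).card : ℝ)) ≤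
      2 ^ Fintype.card (Sym2 (Fin n)) *
        ((if k = 2 then (n : ℝ) ^ 2 * (n - 1) * h else 0) + h) := by
    intro k hk
    rw [mem_Icc] at hk
    have h1 : (∑ S ∈ powersetCard k (univ : Finset (Fin n)),
        ∑ R ∈ powersetCard (k - 1) (univ : Finset (Fin n)),
          ((univ.filter fun s : Sym2 (Fin n) → Bool => Det S R s).card : ℝ)) ≤
        2 ^ Fintype.card (Sym2 (Fin n)) * ∑ S ∈ powersetCard k (univ : Finset (Fin n)),
          ∑ R ∈ powersetCard (k - 1) (univ : Finset (Fin n)),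
            ∏ m ∈ Rᶜ, rho (fresh S R m) := by
      rw [mul_sum]
      refine sum_le_sum fun S _ => ?_
      rw [mul_sum]
      exact sum_le_sum fun R _ => chain S R
    refine h1.trans (mul_le_mul_of_nonneg_left ?_ (by positivity))
    by_cases h2 : k = 2
    · subst h2
      rw [if_pos rfl]
      have h3 := Upper.term (h := (n : ℝ) ^ 2 * (n - 1) * h) (k := 2) (n := n) (by omega)
        (fun a b hab hb => Upper.two a b hab hb) (by norm_num)
      linarith
    · rw [if_neg h2, zero_add]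
      refine Upper.term (by omega) (fun a b hab hb => ?_) (by omega)
      refine H n hn0 k a b (by omega) (le_trans ?_ hK) hab hb
      exact_mod_cast hk.2
  refine (sum_le_sum hk).trans ?_
  rw [← mul_sum, sum_add_distrib, sum_ite_eq', sum_const, nsmul_eq_mul, mul_comm]
  refine mul_le_mul_of_nonneg_right ?_ (by positivity)
  have h4 : (if 2 ∈ Icc 2 K then (n : ℝ) ^ 2 * (n - 1) * h else 0) ≤
      (n : ℝ) ^ 2 * (n - 1) * h := by
    split_ifs
    · exact le_rfl
    · have : (0 : ℝ) ≤ n - 1 := by linarith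
      positivity
  have h5 : ((#(Icc 2 K) : ℕ) : ℝ) ≤ n - 1 := by
    have : #(Icc 2 K) + 1 ≤ n := by
      rw [Nat.card_Icc]
      omega
    have h8 : ((#(Icc 2 K) + 1 : ℕ) : ℝ) ≤ n := by exact_mod_cast this
    push_cast at h8
    linarith
  have h6 : ((#(Icc 2 K) : ℕ) : ℝ) * h ≤ (n - 1) * h := mul_le_mul_of_nonneg_right h5 hpos.le
  have h7 : (n : ℝ) * h ≤ (n : ℝ) ^ 2 * h := by
    refine mul_le_mul_of_nonneg_right ?_ hpos.le
    nlinarith
  nlinarith

open Classical in
/-- kernel vectors with at least `2 n / log n` zero coordinates -/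
theorem upper_log_of (chain : ∀ {n : ℕ} (S R : Finset (Fin n)),
      (#{s | Det S R s} : ℝ) ≤
        2 ^ Fintype.card (Sym2 (Fin n)) * ∏ m ∈ Rᶜ, rho (fresh S R m)) :
    ∃ n0 : ℕ, ∀ n ≥ n0, ∀ K : ℕ, (K : ℝ) ≤ n - 2 * n / Real.log n →
      pr n (Sparse n K) ≤ ((n : ℝ) ^ 3 - 1) * (1 / 2) ^ n := by
  obtain ⟨n1, h1⟩ := asym (ε := 1 / 4) (by norm_num)
  obtain ⟨n2, h2⟩ := asym_log
  refine upper_gen chain (fun n => n - 2 * n / Real.log n) (fun n => ?_) (max (max n1 n2) 2)
    fun n hn k a b hk hkg hab hbk => ?_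
  · have : 0 ≤ 2 * (n : ℝ) / Real.log n :=
      div_nonneg (by positivity) (Real.log_natCast_nonneg n)
    linarith
  · have hn1 : n1 ≤ n := (le_max_left _ _).trans ((le_max_left _ _).trans hn)
    have hn2 : n2 ≤ n := (le_max_right _ _).trans ((le_max_left _ _).trans hn)
    have hn3 : 2 ≤ n := (le_max_right _ _).trans hn
    by_cases hkn : n + 1 ≤ 2 * k
    · refine h2 n hn2 k a b hkn (by linarith) ?_ hab hbk
      have : 0 ≤ 2 * (n : ℝ) / Real.log n :=
        div_nonneg (by positivity) (Real.log_natCast_nonneg n)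
      have h3 : (k : ℝ) ≤ n := by linarith
      exact_mod_cast h3
    · refine h1 n hn1 k a b hk ?_ hab hbk
      have h3 : 2 * k ≤ n := by omega
      have h4 : ((2 * k : ℕ) : ℝ) ≤ n := by exact_mod_cast h3
      push_cast at h4
      have : (0 : ℝ) ≤ n := Nat.cast_nonneg n
      linarith

end Vale.Agent.P160
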