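import Vale.Agent.P160.Chain
import Vale.Agent.P160.UpperLog
import Vale.Agent.P160.Low
import Vale.Agent.P160.Lim

/-!
# P160: assembly for the sparse kernel vectors
-/

namespace Vale.Agent.P160

open Finset

theorem pr_mono {n : ℕ} {E F : Set (Sym2 (Fin n) → Bool)} (h : E ⊆ F) : pr n E ≤ pr n F := by
  unfold pr
  have h1 : Nat.card E ≤ Nat.card F := Nat.card_mono (Set.toFinite F) h
  have h2 : (Nat.card E : ℝ) ≤ Nat.card F := by exact_mod_cast h1
  exact div_le_div_of_nonneg_right h2 (by positivity)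

theorem pr_union {n : ℕ} (E F : Set (Sym2 (Fin n) → Bool)) : pr n (E ∪ F) ≤ pr n E + pr n F := by
  unfold pr
  rw [← add_div]
  have h1 : Nat.card (E ∪ F : Set (Sym2 (Fin n) → Bool)) ≤ Nat.card E + Nat.card F := by
    rw [Nat.card_coe_set_eq, Nat.card_coe_set_eq, Nat.card_coe_set_eq]
    exact Set.ncard_union_le E F
  have h2 : (Nat.card (E ∪ F : Set (Sym2 (Fin n) → Bool)) : ℝ) ≤ Nat.card E + Nat.card F := by
    exact_mod_cast h1
  exact div_le_div_of_nonneg_right h2 (by positivity)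

theorem upper_sharp : ∃ n0 : ℕ, ∀ n ≥ n0, ∀ k : ℕ, (k : ℝ) ≤ n - 2 * n / Real.log n →
    pr n (Sparse n k) ≤ ((n : ℝ) ^ 3 - 1) * (1 / 2) ^ n :=
  upper_log_of (fun S R => chain S R)

theorem upper : ∃ n0 : ℕ, ∀ n ≥ n0, ∀ k : ℕ, (k : ℝ) ≤ n - 2 * n / Real.log n →
    pr n (Sparse n k) ≤ (n : ℝ) ^ 3 * (1 / 2) ^ n := by
  obtain ⟨n0, h0⟩ := upper_sharp
  refine ⟨n0, fun n hn k hk => (h0 n hn k hk).trans ?_⟩
  have : (0 : ℝ) < (1 / 2) ^ n := by positivity
  nlinarith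

/-- the limit of the `n`-th roots, for every threshold `k n` -/
theorem limit (k : ℕ → ℕ) (h2 : ∀ᶠ n in Filter.atTop, 2 ≤ k n)
    (hk : ∀ᶠ n : ℕ in Filter.atTop, (k n : ℝ) ≤ n - 2 * n / Real.log n) :
    Filter.Tendsto (fun n : ℕ => pr n (Sparse n (k n)) ^ (1 / (n : ℝ)))
      Filter.atTop (nhds (1 / 2)) := by
  obtain ⟨n0, h0⟩ := upper
  obtain ⟨n1, h1⟩ := Filter.eventually_atTop.1 h2
  obtain ⟨n2, h2⟩ := Filter.eventually_atTop.1 hk
  refine lim_root _ (max (max n0 n1) (max n2 2)) ?_ ?_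
  · intro n hn
    exact low (le_trans (le_trans (le_max_right _ _) (le_max_right _ _)) hn)
      (h1 n (le_trans (le_trans (le_max_right _ _) (le_max_left _ _)) hn))
  · intro n hn
    exact h0 n (le_trans (le_trans (le_max_left _ _) (le_max_left _ _)) hn) (k n)
      (h2 n (le_trans (le_trans (le_max_left _ _) (le_max_right _ _)) hn))

theorem det_split (n k : ℕ) :
    pr n {s | (mat s).det = 0} ≤ pr n (Sparse n k) +
      pr n {s | (mat s).det = 0 ∧ ∀ v : Fin n → ℝ, v ≠ 0 → (mat s).mulVec v = 0 → k < nnz v} := by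
  refine le_trans (pr_mono ?_) (pr_union _ _)
  intro s hs
  by_cases hsp : s ∈ Sparse n k
  · exact Or.inl hsp
  · refine Or.inr ⟨hs, fun v hv hAv => ?_⟩
    by_contra hcon
    exact hsp ⟨v, hv, hAv, not_lt.1 hcon⟩

end Vale.Agent.P160
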