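import Mathlib

/-! P160, row LIM2 -/

namespace Vale.Agent.P160

open Finset

/-- [LIM2] Lim2.lean -/
theorem lim_ratio (f : ℕ → ℝ) (n0 : ℕ)
    (h1 : ∀ n ≥ n0, ((n : ℝ) * (n - 1) - 256 * (n : ℝ) ^ 4 * (1 / 2) ^ n) * (1 / 2) ^ n ≤ f n)
    (h2 : ∀ n ≥ n0, f n ≤ ((n : ℝ) ^ 2 + 1) * (1 / 2) ^ n) :
    Filter.Tendsto (fun n : ℕ => f n / ((n : ℝ) ^ 2 * (1 / 2) ^ n)) Filter.atTop (nhds 1) := by
  have hinv : Filter.Tendsto (fun n : ℕ => ((n : ℝ))⁻¹) Filter.atTop (nhds 0) :=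
    tendsto_inv_atTop_nhds_zero_nat
  have hgeo : Filter.Tendsto (fun n : ℕ => (n : ℝ) ^ 2 * (1 / 2 : ℝ) ^ n) Filter.atTop (nhds 0) :=
    tendsto_pow_const_mul_const_pow_of_abs_lt_one 2 (by rw [abs_of_pos] <;> norm_num)
  have hlow : Filter.Tendsto (fun n : ℕ => 1 - (n : ℝ)⁻¹ - 256 * ((n : ℝ) ^ 2 * (1 / 2 : ℝ) ^ n))
      Filter.atTop (nhds 1) := by
    have := (tendsto_const_nhds (x := (1 : ℝ))).sub hinv |>.sub (hgeo.const_mul 256)
    simpa using this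
  have hupp : Filter.Tendsto (fun n : ℕ => 1 + ((n : ℝ)⁻¹) ^ 2) Filter.atTop (nhds 1) := by
    have := (tendsto_const_nhds (x := (1 : ℝ))).add (hinv.pow 2)
    simpa using this
  refine tendsto_of_tendsto_of_tendsto_of_le_of_le' hlow hupp ?_ ?_
  · filter_upwards [Filter.eventually_ge_atTop n0, Filter.eventually_ge_atTop 1] with n hn hn1
    have hn0 : (0 : ℝ) < n := by exact_mod_cast hn1
    have hpos : (0 : ℝ) < (n : ℝ) ^ 2 * (1 / 2) ^ n := by positivity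
    rw [le_div_iff₀ hpos]
    refine le_trans (le_of_eq ?_) (h1 n hn)
    field_simp
  · filter_upwards [Filter.eventually_ge_atTop n0, Filter.eventually_ge_atTop 1] with n hn hn1
    have hn0 : (0 : ℝ) < n := by exact_mod_cast hn1
    have hpos : (0 : ℝ) < (n : ℝ) ^ 2 * (1 / 2) ^ n := by positivity
    rw [div_le_iff₀ hpos]
    refine (h2 n hn).trans (le_of_eq ?_)
    field_simp

end Vale.Agent.P160
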