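import Vale.Agent.P160.SharpDefs

/-!
P160, row SUB: two columns that are equal up to sign give a kernel vector with two nonzero
coordinates.
-/

namespace Vale.Agent.P160

open Finset

/-- [SUB] Sub.lean -/
theorem dep_sub {n k : ℕ} (hk : 2 ≤ k) : Dep n ⊆ Sparse n k := by
  classical
  rintro s ⟨i, j, hij, b, hb⟩
  have hne : i ≠ j := hij.ne
  let w : Fin n → ℝ := fun l => if l = i then 1 else if l = j then -sg b else 0
  have hwi : w i = 1 := if_pos rfl
  have hwj : w j = -sg b := by
    show (if j = i then (1 : ℝ) else if j = j then -sg b else 0) = _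
    rw [if_neg hne.symm, if_pos rfl]
  have hw0 : ∀ l, l ∉ ({i, j} : Finset (Fin n)) → w l = 0 := by
    intro l hl
    rw [mem_insert, mem_singleton, not_or] at hl
    show (if l = i then (1 : ℝ) else if l = j then -sg b else 0) = _
    rw [if_neg hl.1, if_neg hl.2]
  refine ⟨w, ?_, ?_, ?_⟩
  · intro h
    have := congrFun h i
    rw [hwi] at this
    exact one_ne_zero this
  · funext l
    have h2 : (mat s).mulVec w l = ∑ x, mat s l x * w x := rfl
    rw [h2, ← Finset.sum_subset (Finset.subset_univ {i, j}), Finset.sum_pair hne, hwi, hwj, hb l]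
    · show _ = (0 : ℝ)
      ring
    · intro x _ hx
      rw [hw0 x hx, mul_zero]
  · refine le_trans ?_ hk
    unfold nnz
    refine le_trans (card_le_card (t := {i, j}) ?_) (card_le_two)
    intro x hx
    rw [mem_filter] at hx
    by_contra h
    exact hx.2 (hw0 x h)

end Vale.Agent.P160
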