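import Vale.Agent.P160.SharpDefs

/-!
# P160: the probability that two given columns are equal or opposite
-/

namespace Vale.Agent.P160

open Finset

namespace Par1

theorem sg_eq_mul (a b d : Bool) : sg a = sg b * sg d ↔ a = (b == d) := by
  cases a <;> cases b <;> cases d <;> norm_num [sg]

theorem mem_par {n : ℕ} {i j : Fin n} {b : Bool} {s : Sym2 (Fin n) → Bool} :
    s ∈ Par i j b ↔ ∀ l : Fin n, s s(l, i) = (b == s s(l, j)) := by
  unfold Par
  simp only [Set.mem_ofPred_eq, mat, Matrix.of_apply]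
  exact forall_congr' fun l => sg_eq_mul _ _ _

/-- the entries which do not meet `i` -/
abbrev Rest {n : ℕ} (i : Fin n) := {e : Sym2 (Fin n) // i ∉ e}

/-- extend a configuration on `Rest i` to one in `Par i j b` -/
noncomputable def ext {n : ℕ} {i j : Fin n} (hij : i ≠ j) (b : Bool) (r : Rest i → Bool) :
    Sym2 (Fin n) → Bool := fun e =>
  Sym2.lift ⟨fun x y =>
    if hx : x = i then
      if hy : y = i then r ⟨s(j, j), by simp [hij]⟩
      else (b == r ⟨s(y, j), by simp [hij, Ne.symm hy]⟩)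
    else
      if hy : y = i then (b == r ⟨s(x, j), by simp [hij, Ne.symm hx]⟩)
      else r ⟨s(x, y), by simp [Ne.symm hx, Ne.symm hy]⟩,
    by
      intro x y
      by_cases hx : x = i <;> by_cases hy : y = i
      · simp only [hx, hy]
      · simp only [hx, hy, dif_pos, dif_neg, not_false_eq_true]
      · simp only [hx, hy, dif_pos, dif_neg, not_false_eq_true]
      · simp only [dif_neg hx, dif_neg hy]
        congr 1
        exact Subtype.ext Sym2.eq_swap⟩ e

theorem ext_ii {n : ℕ} {i j : Fin n} (hij : i ≠ j) (b : Bool) (r : Rest i → Bool) :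
    ext hij b r s(i, i) = r ⟨s(j, j), by simp [hij]⟩ := by
  simp [ext]

theorem ext_i {n : ℕ} {i j : Fin n} (hij : i ≠ j) (b : Bool) (r : Rest i → Bool) {y : Fin n}
    (hy : y ≠ i) : ext hij b r s(y, i) = (b == r ⟨s(y, j), by simp [hij, Ne.symm hy]⟩) := by
  simp [ext, hy]

theorem ext_ne {n : ℕ} {i j : Fin n} (hij : i ≠ j) (b : Bool) (r : Rest i → Bool) {x y : Fin n}
    (hx : x ≠ i) (hy : y ≠ i) :
    ext hij b r s(x, y) = r ⟨s(x, y), by simp [Ne.symm hx, Ne.symm hy]⟩ := by
  simp [ext, hx, hy]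

theorem ext_mem {n : ℕ} {i j : Fin n} (hij : i ≠ j) (b : Bool) (r : Rest i → Bool) :
    ext hij b r ∈ Par i j b := by
  rw [mem_par]
  intro l
  by_cases hl : l = i
  · subst hl
    rw [ext_ii, Sym2.eq_swap (a := l) (b := j), ext_i hij b r (Ne.symm hij)]
    cases b <;> cases r ⟨s(j, j), _⟩ <;> rfl
  · rw [ext_i hij b r hl, ext_ne hij b r hl (Ne.symm hij)]

theorem rest_ext {n : ℕ} {i j : Fin n} (hij : i ≠ j) (b : Bool) (r : Rest i → Bool) (e : Rest i) :
    ext hij b r e.1 = r e := by
  obtain ⟨e, he⟩ := e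
  induction e using Sym2.ind with
  | _ x y =>
    simp only [Sym2.mem_iff, not_or] at he
    exact ext_ne hij b r (Ne.symm he.1) (Ne.symm he.2)

theorem ext_rest {n : ℕ} {i j : Fin n} (hij : i ≠ j) (b : Bool) {s : Sym2 (Fin n) → Bool}
    (hs : s ∈ Par i j b) : ext hij b (fun e : Rest i => s e.1) = s := by
  rw [mem_par] at hs
  funext e
  induction e using Sym2.ind with
  | _ x y =>
    by_cases hx : x = i
    · by_cases hy : y = i
      · subst hx
        subst hy
        rw [ext_ii, hs y, Sym2.eq_swap (a := y) (b := j), hs j]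
        cases b <;> cases s s(j, j) <;> rfl
      · subst hx
        rw [Sym2.eq_swap, ext_i hij b _ hy, hs y]
    · by_cases hy : y = i
      · subst hy
        rw [ext_i hij b _ hx, hs x]
      · rw [ext_ne hij b _ hx hy]

/-- `Par i j b` is parametrised by the entries which do not meet `i` -/
noncomputable def equiv {n : ℕ} {i j : Fin n} (hij : i ≠ j) (b : Bool) :
    ↥(Par i j b) ≃ (Rest i → Bool) where
  toFun s := fun e => s.1 e.1
  invFun r := ⟨ext hij b r, ext_mem hij b r⟩
  left_inv s := Subtype.ext (ext_rest hij b s.2)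
  right_inv r := funext fun e => rest_ext hij b r e

/-- the entries which meet `i` are the entries `{l, i}` -/
noncomputable def equivMeet {n : ℕ} (i : Fin n) : Fin n ≃ {e : Sym2 (Fin n) // i ∈ e} :=
  Equiv.ofBijective (fun l => ⟨s(i, l), Sym2.mem_mk_left i l⟩) (by
    constructor
    · intro x y h
      have h1 : s(i, x) = s(i, y) := congrArg Subtype.val h
      exact Sym2.congr_right.1 h1
    · rintro ⟨e, he⟩
      obtain ⟨l, rfl⟩ := he
      exact ⟨l, rfl⟩)

theorem card_rest {n : ℕ} (i : Fin n) :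
    Nat.card (Rest i) + n = Fintype.card (Sym2 (Fin n)) := by
  classical
  have h1 : Nat.card {e : Sym2 (Fin n) // i ∈ e} = n := by
    rw [← Nat.card_congr (equivMeet i), Nat.card_eq_fintype_card, Fintype.card_fin]
  have h2 : Nat.card {e : Sym2 (Fin n) // i ∈ e} + Nat.card {e : Sym2 (Fin n) // ¬ i ∈ e} =
      Nat.card (Sym2 (Fin n)) := by
    rw [← Nat.card_sum, Nat.card_congr (Equiv.sumCompl (fun e : Sym2 (Fin n) => i ∈ e))]
  rw [h1, Nat.card_eq_fintype_card (α := Sym2 (Fin n))] at h2
  have h3 : Nat.card (Rest i) = Nat.card {e : Sym2 (Fin n) // ¬ i ∈ e} := rfl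
  omega

end Par1

/-- [PAR1] Par1.lean -/
theorem pr_par {n : ℕ} {i j : Fin n} (hij : i ≠ j) (b : Bool) :
    pr n (Par i j b) = (1 / 2) ^ n := by
  classical
  have h1 : Nat.card ↥(Par i j b) = 2 ^ Nat.card (Par1.Rest i) := by
    rw [Nat.card_congr (Par1.equiv hij b), Nat.card_fun, Nat.card_eq_fintype_card (α := Bool),
      Fintype.card_bool]
  unfold pr
  rw [h1, ← Par1.card_rest i, pow_add, one_div, inv_pow]
  push_cast
  rw [div_mul_eq_div_div, div_self (by positivity), one_div]

end Vale.Agent.P160
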