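import Vale.Agent.P160.Defs

/-!
# P160, row RHO: central binomial probabilities
-/

namespace Vale.Agent.P160

open Finset

theorem rho_pos (m : ℕ) : 0 < rho m := by
  unfold rho
  have h : 0 < m.choose (m / 2) := Nat.choose_pos (Nat.div_le_self m 2)
  positivity

theorem rho_antitone : Antitone rho := by
  apply antitone_nat_of_succ_le
  intro m
  have h : (m + 1).choose ((m + 1) / 2) ≤ 2 * m.choose (m / 2) := by
    rcases Nat.eq_zero_or_pos m with rfl | hm
    · decide
    · obtain ⟨k, hk⟩ : ∃ k, (m + 1) / 2 = k + 1 := ⟨(m + 1) / 2 - 1, by omega⟩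
      rw [hk, Nat.choose_succ_succ']
      have h1 := Nat.choose_le_middle k m
      have h2 := Nat.choose_le_middle (k + 1) m
      omega
  have h' : ((m + 1).choose ((m + 1) / 2) : ℝ) ≤ 2 * (m.choose (m / 2) : ℝ) := by
    exact_mod_cast h
  unfold rho
  rw [div_le_div_iff₀ (by positivity) (by positivity), pow_succ]
  have h2 : (0 : ℝ) < 2 ^ m := by positivity
  nlinarith

theorem rho_one : rho 1 = 1 / 2 := by
  norm_num [rho]

theorem rho_two : rho 2 = 1 / 2 := by
  have h : (2 : ℕ).choose (2 / 2) = 2 := by decide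
  unfold rho
  rw [h]
  norm_num

theorem rho_three : rho 3 = 3 / 8 := by
  have h : (3 : ℕ).choose (3 / 2) = 3 := by decide
  unfold rho
  rw [h]
  norm_num

theorem centralBinom_sq_le (k : ℕ) : (2 * k + 1) * k.centralBinom ^ 2 ≤ 16 ^ k := by
  induction k with
  | zero => simp
  | succ k ih =>
    have h := Nat.succ_mul_centralBinom_succ k
    have hpos : 0 < (k + 1) ^ 2 := by positivity
    refine Nat.le_of_mul_le_mul_left ?_ hpos
    calc (k + 1) ^ 2 * ((2 * (k + 1) + 1) * (k + 1).centralBinom ^ 2)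
        = (2 * (k + 1) + 1) * ((k + 1) * (k + 1).centralBinom) ^ 2 := by ring
      _ = (2 * (k + 1) + 1) * (2 * (2 * k + 1) * k.centralBinom) ^ 2 := by rw [h]
      _ = 4 * ((2 * k + 3) * (2 * k + 1)) * ((2 * k + 1) * k.centralBinom ^ 2) := by ring
      _ ≤ 4 * ((2 * k + 3) * (2 * k + 1)) * 16 ^ k := Nat.mul_le_mul_left _ ih
      _ ≤ 4 * (4 * (k + 1) ^ 2) * 16 ^ k := by
          apply Nat.mul_le_mul_right
          nlinarith
      _ = (k + 1) ^ 2 * 16 ^ (k + 1) := by ring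

theorem rho_even_sq (k : ℕ) : (2 * k + 1 : ℝ) * rho (2 * k) ^ 2 ≤ 1 := by
  have h := centralBinom_sq_le k
  have h' : (2 * k + 1 : ℝ) * (k.centralBinom : ℝ) ^ 2 ≤ 16 ^ k := by exact_mod_cast h
  unfold rho
  rw [Nat.mul_div_cancel_left k (by norm_num : 0 < 2)]
  have h1 : ((2 * k).choose k : ℝ) = (k.centralBinom : ℝ) := by
    rw [Nat.centralBinom]
  rw [h1, div_pow, ← mul_div_assoc, div_le_one (by positivity)]
  calc (2 * k + 1 : ℝ) * (k.centralBinom : ℝ) ^ 2 ≤ 16 ^ k := h'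
    _ = (2 ^ (2 * k)) ^ 2 := by
      rw [← pow_mul, show (16 : ℝ) = 2 ^ 4 by norm_num, ← pow_mul]
      congr 1
      ring

theorem rho_sq (m : ℕ) : (m : ℝ) * rho m ^ 2 ≤ 1 := by
  rcases Nat.even_or_odd' m with ⟨k, rfl | rfl⟩
  · have h := rho_even_sq k
    push_cast
    nlinarith [sq_nonneg (rho (2 * k))]
  · have h := rho_even_sq k
    have h1 : rho (2 * k + 1) ≤ rho (2 * k) := rho_antitone (Nat.le_succ _)
    have h2 : rho (2 * k + 1) ^ 2 ≤ rho (2 * k) ^ 2 :=
      pow_le_pow_left₀ (rho_pos _).le h1 2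
    push_cast
    have h3 : (0 : ℝ) ≤ 2 * k + 1 := by positivity
    nlinarith [mul_le_mul_of_nonneg_left h2 h3]

end Vale.Agent.P160
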