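import Vale.Agent.P160.Bon
import Vale.Agent.P160.Cov
import Vale.Agent.P160.Lim2
import Vale.Agent.P160.Sub
import Vale.Agent.P160.Few.Final

/-!
# P160: the structured part of the singularity event has probability `(1 + o(1)) n ^ 2 2 ^ (-n)`
-/

open Finset

namespace Vale.Agent.P160.Shp

open Vale.Agent.P160.Few

/-- `n / 2` is below the threshold `n - 2 n / log n` -/
theorem half_le : ∃ n0 : ℕ, ∀ n ≥ n0, ((n / 2 : ℕ) : ℝ) ≤ n - 2 * n / Real.log n := by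
  obtain ⟨n0, h0⟩ := exists_nat_gt (Real.exp 4)
  refine ⟨n0, fun n hn => ?_⟩
  have h1 : Real.exp 4 < n := lt_of_lt_of_le h0 (by exact_mod_cast hn)
  have hn0 : (0 : ℝ) < n := lt_trans (Real.exp_pos 4) h1
  have h2 : 4 < Real.log n := by rwa [Real.lt_log_iff_exp_lt hn0]
  have h3 : 2 * (n : ℝ) / Real.log n ≤ n / 2 := by
    rw [div_le_iff₀ (by linarith)]
    nlinarith
  have h4 : ((n / 2 : ℕ) : ℝ) ≤ (n : ℝ) / 2 := Nat.cast_div_le
  linarith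

theorem few_sharp {δ ε : ℝ} (hδ : 0 < δ) (hε : 0 < ε) : ∃ n0 : ℕ, ∀ n ≥ n0, ∀ m g : ℕ,
    (m : ℝ) ≤ (n : ℝ) ^ (1 / 2 - ε) → δ * n ≤ g →
    pr n (FewVal n m g) ≤ ((n : ℝ) ^ 2 + 1) * (1 / 2) ^ n := by
  set ε' : ℝ := min ε (1 / 4) with hε'
  have he0 : 0 < ε' := lt_min hε (by norm_num)
  have he1 : ε' < 1 / 2 := lt_of_le_of_lt (min_le_right _ _) (by norm_num)
  obtain ⟨n1, h1⟩ := num_dense δ ε' hδ he0 he1
  obtain ⟨n2, h2⟩ := sparse_sharp
  obtain ⟨n3, h3⟩ := half_le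
  refine ⟨max (max n1 (max n2 n3)) 1, fun n hn m g hm hg => ?_⟩
  have hn1 : n1 ≤ n := ((le_max_left _ _).trans (le_max_left _ _)).trans hn
  have hn2 : n2 ≤ n :=
    ((le_max_left _ _).trans ((le_max_right _ _).trans (le_max_left _ _))).trans hn
  have hn3 : n3 ≤ n :=
    ((le_max_right _ _).trans ((le_max_right _ _).trans (le_max_left _ _))).trans hn
  have hn0 : 1 ≤ n := (le_max_right _ _).trans hn
  have hnR : (1 : ℝ) ≤ n := by exact_mod_cast hn0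
  have hg1 : 1 ≤ g := by
    have : (0 : ℝ) < g := lt_of_lt_of_le (by positivity) hg
    exact_mod_cast this
  have hpos : (0 : ℝ) ≤ ((n : ℝ) ^ 2 + 1) * (1 / 2) ^ n := by positivity
  rcases Nat.eq_zero_or_pos m with rfl | hm1
  · rw [fewVal_empty_of_zero hg1, pr_empty]
    exact hpos
  rcases lt_or_ge n g with hgn | hgn
  · rw [fewVal_empty_of_lt hgn, pr_empty]
    exact hpos
  have hm' : (m : ℝ) ≤ (n : ℝ) ^ (1 / 2 - ε') := by
    refine hm.trans (Real.rpow_le_rpow_of_exponent_le hnR ?_)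
    have := min_le_left ε (1 / 4)
    linarith
  have hnum := h1 n hn1 m g hm1 hm' hg hgn
  have hd := dense hn0 hm1 hg1 hgn
  have hd2 : (8 : ℝ) ^ n * (m : ℝ) ^ g * Real.sqrt ((6 : ℝ) ^ n * ((1 : ℝ) / n) ^ (g - m)) ≤
      (1 / 2) ^ n := by
    have hY : (0 : ℝ) ≤ (6 : ℝ) ^ n * ((1 : ℝ) / n) ^ (g - m) := by positivity
    refine le_of_sq_le_sq ?_ (by positivity)
    rw [mul_pow, Real.sq_sqrt hY]
    exact hnum
  have hsp : pr n (Sparse n (n / 2)) ≤ (n : ℝ) ^ 2 * (1 / 2) ^ n :=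
    h2 n hn2 (n / 2) (h3 n hn3)
  calc pr n (FewVal n m g)
      ≤ pr n ((FewVal n m g \ Sparse n (n / 2)) ∪ Sparse n (n / 2)) :=
        pr_mono (by rw [Set.sdiff_union_self]; exact Set.subset_union_left)
    _ ≤ pr n (FewVal n m g \ Sparse n (n / 2)) + pr n (Sparse n (n / 2)) := pr_union _ _
    _ ≤ (1 / 2) ^ n + (n : ℝ) ^ 2 * (1 / 2) ^ n := add_le_add (hd.trans hd2) hsp
    _ = ((n : ℝ) ^ 2 + 1) * (1 / 2) ^ n := by ring

theorem few_lower_sharp {n m g : ℕ} (hm : 1 ≤ m) (hg : g + 2 ≤ n) :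
    ((n : ℝ) * (n - 1) - 256 * (n : ℝ) ^ 4 * (1 / 2) ^ n) * (1 / 2) ^ n ≤
      pr n (FewVal n m g) :=
  (dep_lower n).trans (pr_mono ((dep_sub le_rfl).trans (sparse_sub hm hg)))

theorem sparse_lower_sharp {n k : ℕ} (hk : 2 ≤ k) :
    ((n : ℝ) * (n - 1) - 256 * (n : ℝ) ^ 4 * (1 / 2) ^ n) * (1 / 2) ^ n ≤ pr n (Sparse n k) :=
  (dep_lower n).trans (pr_mono (dep_sub hk))

theorem few_ratio {δ ε : ℝ} (hδ : 0 < δ) (hδ1 : δ < 1) (hε : 0 < ε) (hε1 : ε ≤ 1 / 2) :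
    Filter.Tendsto (fun n : ℕ => pr n (FewVal n ⌊(n : ℝ) ^ (1 / 2 - ε)⌋₊ ⌈δ * n⌉₊) /
      ((n : ℝ) ^ 2 * (1 / 2) ^ n)) Filter.atTop (nhds 1) := by
  obtain ⟨n0, h0⟩ := few_sharp hδ hε
  obtain ⟨n1, h1⟩ := exists_nat_gt (3 / (1 - δ))
  have hpos : 0 < 1 - δ := by linarith
  refine lim_ratio _ (max n0 (max n1 2)) ?_ ?_
  · intro n hn
    have hn1 : n1 ≤ n := le_trans (le_trans (le_max_left _ _) (le_max_right _ _)) hn
    have hn2 : 2 ≤ n := le_trans (le_trans (le_max_right _ _) (le_max_right _ _)) hn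
    have hnR : (1 : ℝ) ≤ n := by exact_mod_cast (le_trans (by norm_num) hn2)
    apply few_lower_sharp
    · rw [Nat.one_le_floor_iff]
      exact Real.one_le_rpow hnR (by linarith)
    · have h2 : 3 / (1 - δ) < n := lt_of_lt_of_le h1 (by exact_mod_cast hn1)
      rw [div_lt_iff₀ hpos] at h2
      have h3 : (⌈δ * n⌉₊ : ℝ) < δ * n + 1 := Nat.ceil_lt_add_one (by positivity)
      have h4 : ((⌈δ * n⌉₊ + 2 : ℕ) : ℝ) < (n : ℝ) + 1 := by
        push_cast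
        nlinarith
      have h5 : ⌈δ * (n : ℝ)⌉₊ + 2 < n + 1 := by exact_mod_cast h4
      omega
  · intro n hn
    exact h0 n (le_trans (le_max_left _ _) hn) _ _ (Nat.floor_le (by positivity)) (Nat.le_ceil _)

theorem sparse_ratio (k : ℕ → ℕ) (hk2 : ∀ᶠ n in Filter.atTop, 2 ≤ k n)
    (hk : ∀ᶠ n : ℕ in Filter.atTop, (k n : ℝ) ≤ n - 2 * n / Real.log n) :
    Filter.Tendsto (fun n : ℕ => pr n (Sparse n (k n)) / ((n : ℝ) ^ 2 * (1 / 2) ^ n))
      Filter.atTop (nhds 1) := by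
  obtain ⟨n0, h0⟩ := sparse_sharp
  obtain ⟨n1, h1⟩ := Filter.eventually_atTop.1 hk2
  obtain ⟨n2, h2⟩ := Filter.eventually_atTop.1 hk
  refine lim_ratio _ (max n0 (max n1 n2)) ?_ ?_
  · intro n hn
    exact sparse_lower_sharp (h1 n (le_trans (le_trans (le_max_left _ _) (le_max_right _ _)) hn))
  · intro n hn
    refine (h0 n (le_trans (le_max_left _ _) hn) (k n)
      (h2 n (le_trans (le_trans (le_max_right _ _) (le_max_right _ _)) hn))).trans ?_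
    have : (0 : ℝ) < (1 / 2) ^ n := by positivity
    nlinarith

open Classical in
/-- What is left of the singularity event. -/
theorem few_split_sharp {δ ε : ℝ} (hδ : 0 < δ) (hε : 0 < ε) : ∃ n0 : ℕ, ∀ n ≥ n0, ∀ m g : ℕ,
    (m : ℝ) ≤ (n : ℝ) ^ (1 / 2 - ε) → δ * n ≤ g →
    pr n {s | (mat s).det = 0} ≤ ((n : ℝ) ^ 2 + 1) * (1 / 2) ^ n +
      pr n {s | (mat s).det = 0 ∧ ∀ v : Fin n → ℝ, v ≠ 0 → (mat s).mulVec v = 0 →
        ∀ T : Finset ℝ, #T ≤ m → #{j | v j ∈ T} < g} := by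
  obtain ⟨n0, h0⟩ := few_sharp hδ hε
  refine ⟨n0, fun n hn m g hm hg => ?_⟩
  refine le_trans ?_ (add_le_add_left (h0 n hn m g hm hg) _)
  refine le_trans (pr_mono ?_) (pr_union _ _)
  intro s hs
  by_cases hsp : s ∈ FewVal n m g
  · exact Or.inl hsp
  · refine Or.inr ⟨hs, fun v hv hAv T hT => ?_⟩
    by_contra hcon
    exact hsp ⟨v, hv, hAv, T, hT, not_lt.1 hcon⟩

/-- a lower bound for the singularity probability -/
theorem det_lower (n : ℕ) :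
    ((n : ℝ) * (n - 1) - 256 * (n : ℝ) ^ 4 * (1 / 2) ^ n) * (1 / 2) ^ n ≤
      pr n {s | (mat s).det = 0} := by
  refine (dep_lower n).trans (pr_mono ?_)
  intro s hs
  obtain ⟨v, hv, hA, _⟩ := dep_sub (k := 2) le_rfl hs
  exact Matrix.exists_mulVec_eq_zero_iff.1 ⟨v, hv, hA⟩

end Vale.Agent.P160.Shp
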