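import Vale.Agent.P160.Main

/-!
# P160: the sharp asymptotics of the structured part: definitions
-/

namespace Vale.Agent.P160

open Finset

/-- The columns `i` and `j` are equal (`b = true`) or opposite (`b = false`). -/
def Par {n : ℕ} (i j : Fin n) (b : Bool) : Set (Sym2 (Fin n) → Bool) :=
  {s | ∀ l : Fin n, mat s l i = sg b * mat s l j}

/-- Two different columns are equal or opposite. -/
def Dep (n : ℕ) : Set (Sym2 (Fin n) → Bool) :=
  {s | ∃ i j : Fin n, i < j ∧ ∃ b : Bool, s ∈ Par i j b}

end Vale.Agent.P160
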