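import Vale.Agent.P160.Prod
import Vale.Agent.P160.Alg
import Vale.Agent.P160.Rho
import Vale.Agent.P160.Asym

/-!
P160: the upper bound, assembled from the rows.
-/

namespace Vale.Agent.P160

open Finset

namespace Upper

open Classical in
theorem cover (n K : ℕ) :
    (univ.filter fun s : Sym2 (Fin n) → Bool => s ∈ Sparse n K) ⊆
      (Icc 2 K).biUnion fun k => (powersetCard k (univ : Finset (Fin n))).biUnion fun S =>
        (powersetCard (k - 1) (univ : Finset (Fin n))).biUnion fun R =>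
          univ.filter fun s => Det S R s := by
  intro s hs
  rw [mem_filter] at hs
  obtain ⟨S, R, h1, h2, h3, h4⟩ := exists_det hs.2
  simp only [mem_biUnion, mem_Icc, mem_powersetCard, mem_filter, subset_univ, true_and,
    mem_univ]
  exact ⟨#S, ⟨h1, h2⟩, S, rfl, R, by omega, h4⟩

open Classical in
theorem card_le (n K : ℕ) :
    ((univ.filter fun s : Sym2 (Fin n) → Bool => s ∈ Sparse n K).card : ℝ) ≤
      ∑ k ∈ Icc 2 K, ∑ S ∈ powersetCard k (univ : Finset (Fin n)),
        ∑ R ∈ powersetCard (k - 1) (univ : Finset (Fin n)),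
          ((univ.filter fun s : Sym2 (Fin n) → Bool => Det S R s).card : ℝ) := by
  have h : (univ.filter fun s : Sym2 (Fin n) → Bool => s ∈ Sparse n K).card ≤
      ∑ k ∈ Icc 2 K, ∑ S ∈ powersetCard k (univ : Finset (Fin n)),
        ∑ R ∈ powersetCard (k - 1) (univ : Finset (Fin n)),
          (univ.filter fun s : Sym2 (Fin n) → Bool => Det S R s).card := by
    refine (card_le_card (cover n K)).trans (card_biUnion_le.trans (sum_le_sum fun k _ => ?_))
    refine card_biUnion_le.trans (sum_le_sum fun S _ => ?_)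
    exact card_biUnion_le
  exact_mod_cast h

/-- the numbers of rows of the two kinds -/
theorem counts {n : ℕ} (S R : Finset (Fin n)) (h : #R + 1 = #S) :
    #(S ∪ R)ᶜ + #(S \ R) + #S = n + 1 := by
  have h1 : #(S ∪ R)ᶜ + #(S ∪ R) = n := by
    rw [card_compl, Fintype.card_fin]
    have : #(S ∪ R) ≤ n := by
      simpa using card_le_univ (S ∪ R)
    omega
  have h2 : #(S ∪ R) = #(S \ R) + #R := by
    rw [← sdiff_union_self_eq_union, card_union_of_disjoint sdiff_disjoint]
  omega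

/-- one pair `(S, R)` -/
theorem term {n : ℕ} {h : ℝ} {k : ℕ} (hkn : k ≤ n)
    (H : ∀ a b : ℕ, a + b + k = n + 1 → b ≤ k →
      (n.choose k : ℝ) * (n.choose (k - 1)) * (rho k ^ a * ∏ i ∈ range b, rho (i + 1)) ≤ h)
    (hk : 1 ≤ k) :
    ∑ S ∈ powersetCard k (univ : Finset (Fin n)),
      ∑ R ∈ powersetCard (k - 1) (univ : Finset (Fin n)), ∏ m ∈ Rᶜ, rho (fresh S R m) ≤ h := by
  have hc1 : (0 : ℝ) < n.choose k := by exact_mod_cast Nat.choose_pos hkn
  have hc2 : (0 : ℝ) < n.choose (k - 1) := by exact_mod_cast Nat.choose_pos (by omega)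
  have hb : ∀ S ∈ powersetCard k (univ : Finset (Fin n)),
      ∀ R ∈ powersetCard (k - 1) (univ : Finset (Fin n)),
        ∏ m ∈ Rᶜ, rho (fresh S R m) ≤ h / ((n.choose k : ℝ) * (n.choose (k - 1))) := by
    intro S hS R hR
    rw [mem_powersetCard] at hS hR
    have hRS : #R + 1 = #S := by omega
    have h1 := counts S R hRS
    have h2 : #(S \ R) ≤ #S := card_le_card sdiff_subset
    rw [hS.2] at h1 h2
    rw [prod_fresh, hS.2, le_div_iff₀ (by positivity), mul_comm]
    exact H _ _ h1 h2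
  calc _ ≤ ∑ S ∈ powersetCard k (univ : Finset (Fin n)),
        ∑ R ∈ powersetCard (k - 1) (univ : Finset (Fin n)),
          h / ((n.choose k : ℝ) * (n.choose (k - 1))) :=
        sum_le_sum fun S hS => sum_le_sum fun R hR => hb S hS R hR
    _ = h := by
        rw [sum_const, sum_const, card_powersetCard, card_powersetCard, card_univ,
          Fintype.card_fin, nsmul_eq_mul, nsmul_eq_mul]
        field_simp

theorem two {n : ℕ} (a b : ℕ) (h : a + b + 2 = n + 1) (hb : b ≤ 2) :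
    (n.choose 2 : ℝ) * (n.choose (2 - 1)) * (rho 2 ^ a * ∏ i ∈ range b, rho (i + 1)) ≤
      (n : ℝ) ^ 2 * (n - 1) * (1 / 2) ^ n := by
  have h1 : ∏ i ∈ range b, rho (i + 1) = (1 / 2) ^ b := by
    rw [Finset.prod_congr rfl (g := fun _ => (1 / 2 : ℝ)), prod_const, card_range]
    intro i hi
    rw [mem_range] at hi
    obtain rfl | rfl : i = 0 ∨ i = 1 := by omega
    · exact rho_one
    · exact rho_two
  have h2 : n = a + b + 1 := by omega
  rw [h1, rho_two, Nat.cast_choose_two, show (2 - 1 : ℕ) = 1 from rfl, Nat.choose_one_right,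
    ← pow_add]
  have h3 : (1 / 2 : ℝ) ^ n = (1 / 2) ^ (a + b) * (1 / 2) := by
    rw [h2, pow_succ]
  rw [h3]
  apply le_of_eq
  ring

end Upper

open Classical in
/-- the upper bound, from the inequality [CHAIN] -/
theorem upper_sharp_of (chain : ∀ {n : ℕ} (S R : Finset (Fin n)),
      (#{s | Det S R s} : ℝ) ≤
        2 ^ Fintype.card (Sym2 (Fin n)) * ∏ m ∈ Rᶜ, rho (fresh S R m))
    {ε : ℝ} (hε : 0 < ε) : ∃ n0 : ℕ, ∀ n ≥ n0, ∀ K : ℕ, (K : ℝ) ≤ (1 - ε) * n →
    pr n (Sparse n K) ≤ ((n : ℝ) ^ 3 - 1) * (1 / 2) ^ n := by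
  obtain ⟨n0, H⟩ := asym hε
  refine ⟨max n0 1, fun n hn K hK => ?_⟩
  have hn0 : n0 ≤ n := (le_max_left _ _).trans hn
  have hn1 : 1 ≤ n := (le_max_right _ _).trans hn
  have hn1' : (1 : ℝ) ≤ n := by exact_mod_cast hn1
  have hKn : K ≤ n := by
    have : (K : ℝ) ≤ n := by nlinarith
    exact_mod_cast this
  set h : ℝ := (1 / 2) ^ n with hh
  have hpos : 0 < h := by positivity
  have hcard : (Nat.card (Sparse n K) : ℝ) =
      ((univ.filter fun s : Sym2 (Fin n) → Bool => s ∈ Sparse n K).card : ℝ) := by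
    rw [Nat.card_eq_fintype_card, Fintype.card_subtype]
  rw [pr, div_le_iff₀ (by positivity), hcard]
  refine (Upper.card_le n K).trans ?_
  have hk : ∀ k ∈ Icc 2 K, (∑ S ∈ powersetCard k (univ : Finset (Fin n)),
        ∑ R ∈ powersetCard (k - 1) (univ : Finset (Fin n)),
          ((univ.filter fun s : Sym2 (Fin n) → Bool => Det S R s).card : ℝ)) ≤
      2 ^ Fintype.card (Sym2 (Fin n)) *
        ((if k = 2 then (n : ℝ) ^ 2 * (n - 1) * h else 0) + h) := by
    intro k hk
    rw [mem_Icc] at hk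
    have h1 : (∑ S ∈ powersetCard k (univ : Finset (Fin n)),
        ∑ R ∈ powersetCard (k - 1) (univ : Finset (Fin n)),
          ((univ.filter fun s : Sym2 (Fin n) → Bool => Det S R s).card : ℝ)) ≤
        2 ^ Fintype.card (Sym2 (Fin n)) * ∑ S ∈ powersetCard k (univ : Finset (Fin n)),
          ∑ R ∈ powersetCard (k - 1) (univ : Finset (Fin n)),
            ∏ m ∈ Rᶜ, rho (fresh S R m) := by
      rw [mul_sum]
      refine sum_le_sum fun S _ => ?_
      rw [mul_sum]
      exact sum_le_sum fun R _ => chain S R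
    refine h1.trans (mul_le_mul_of_nonneg_left ?_ (by positivity))
    by_cases h2 : k = 2
    · subst h2
      rw [if_pos rfl]
      have h3 := Upper.term (h := (n : ℝ) ^ 2 * (n - 1) * h) (k := 2) (n := n) (by omega)
        (fun a b hab hb => Upper.two a b hab hb) (by norm_num)
      linarith
    · rw [if_neg h2, zero_add]
      refine Upper.term (by omega) (fun a b hab hb => ?_) (by omega)
      refine H n hn0 k a b (by omega) (le_trans ?_ hK) hab hb
      exact_mod_cast hk.2
  refine (sum_le_sum hk).trans ?_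
  rw [← mul_sum, sum_add_distrib, sum_ite_eq', sum_const, nsmul_eq_mul, mul_comm]
  refine mul_le_mul_of_nonneg_right ?_ (by positivity)
  have h4 : (if 2 ∈ Icc 2 K then (n : ℝ) ^ 2 * (n - 1) * h else 0) ≤
      (n : ℝ) ^ 2 * (n - 1) * h := by
    split_ifs
    · exact le_rfl
    · have : (0 : ℝ) ≤ n - 1 := by linarith
      positivity
  have h5 : ((#(Icc 2 K) : ℕ) : ℝ) ≤ n - 1 := by
    have : #(Icc 2 K) + 1 ≤ n := by
      rw [Nat.card_Icc]
      omega
    have h8 : ((#(Icc 2 K) + 1 : ℕ) : ℝ) ≤ n := by exact_mod_cast this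
    push_cast at h8
    linarith
  have h6 : ((#(Icc 2 K) : ℕ) : ℝ) * h ≤ (n - 1) * h := mul_le_mul_of_nonneg_right h5 hpos.le
  have h7 : (n : ℝ) * h ≤ (n : ℝ) ^ 2 * h := by
    refine mul_le_mul_of_nonneg_right ?_ hpos.le
    nlinarith
  nlinarith

open Classical in
/-- the upper bound, from the inequality [CHAIN] -/
theorem upper_of (chain : ∀ {n : ℕ} (S R : Finset (Fin n)),
      (#{s | Det S R s} : ℝ) ≤
        2 ^ Fintype.card (Sym2 (Fin n)) * ∏ m ∈ Rᶜ, rho (fresh S R m))
    {ε : ℝ} (hε : 0 < ε) : ∃ n0 : ℕ, ∀ n ≥ n0, ∀ K : ℕ, (K : ℝ) ≤ (1 - ε) * n →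
    pr n (Sparse n K) ≤ (n : ℝ) ^ 3 * (1 / 2) ^ n := by
  obtain ⟨n0, H⟩ := upper_sharp_of chain hε
  refine ⟨n0, fun n hn K hK => (H n hn K hK).trans ?_⟩
  have : (0 : ℝ) < (1 / 2) ^ n := by positivity
  nlinarith

end Vale.Agent.P160
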